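import Vale.Agent.P017.H998.Sqf

/-!
# The density of the squarefree numbers in the classes
-/

namespace Vale.Agent.P017.H998

open Finset Filter Topology Vale.Agent.P017.H509
open scoped ArithmeticFunction.Moebius

theorem not_P_zero (c : G) : ¬ P c 0 := by
  rintro ⟨h, _⟩
  revert h
  decide

theorem cl_sq_mul {d k : ℕ} (hd : d.Coprime 30) : cl (d ^ 2 * k) = cl k := by
  have h2 : d % 2 = 1 := by
    have : d.Coprime 2 := hd.coprime_dvd_right (by norm_num)
    rcases Nat.mod_two_eq_zero_or_one d with h | h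
    · exfalso
      have h' : 2 ∣ d := Nat.dvd_of_mod_eq_zero h
      have := Nat.Coprime.eq_one_of_dvd this.symm h'
      omega
    · exact h
  have h3 : d % 3 = 1 ∨ d % 3 = 2 := by
    have : d.Coprime 3 := hd.coprime_dvd_right (by norm_num)
    by_contra hc
    have h' : 3 ∣ d := by omega
    have := Nat.Coprime.eq_one_of_dvd this.symm h'
    omega
  have h5 : d % 5 ≠ 0 := by
    have : d.Coprime 5 := hd.coprime_dvd_right (by norm_num)
    intro h
    have h' : 5 ∣ d := Nat.dvd_of_mod_eq_zero h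
    have := Nat.Coprime.eq_one_of_dvd this.symm h'
    omega
  have e8 : d ^ 2 % 8 = 1 := by
    have : d % 8 = 1 ∨ d % 8 = 3 ∨ d % 8 = 5 ∨ d % 8 = 7 := by omega
    rcases this with h | h | h | h <;> simp [Nat.pow_mod, h]
  have e3 : d ^ 2 % 3 = 1 := by
    rcases h3 with h | h <;> simp [Nat.pow_mod, h]
  have e5 : d ^ 2 % 5 = 1 ∨ d ^ 2 % 5 = 4 := by
    have : d % 5 = 1 ∨ d % 5 = 2 ∨ d % 5 = 3 ∨ d % 5 = 4 := by omega
    rcases this with h | h | h | h <;> simp [Nat.pow_mod, h]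
  have f8 : (d ^ 2 * k) % 8 = k % 8 := by rw [Nat.mul_mod, e8, one_mul, Nat.mod_mod]
  have f4 : (d ^ 2 * k) % 4 = k % 4 := by omega
  have f3 : (d ^ 2 * k) % 3 = k % 3 := by rw [Nat.mul_mod, e3, one_mul, Nat.mod_mod]
  have f5 : ((d ^ 2 * k) % 5 = 2 ∨ (d ^ 2 * k) % 5 = 3) ↔ (k % 5 = 2 ∨ k % 5 = 3) := by
    rcases e5 with h | h
    · rw [Nat.mul_mod, h, one_mul, Nat.mod_mod]
    · rw [Nat.mul_mod, h]
      omega
  unfold cl
  rw [f8, f4, f3]
  congr 3
  simp only [f5]

theorem P_sq_mul {c : G} {d k : ℕ} (hd : d.Coprime 30) : P c (d ^ 2 * k) ↔ P c k := by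
  unfold P
  rw [cl_sq_mul hd, Nat.coprime_mul_iff_left]
  constructor
  · rintro ⟨⟨_, h⟩, h'⟩; exact ⟨h, h'⟩
  · rintro ⟨h, h'⟩; exact ⟨⟨Nat.Coprime.pow_left 2 hd, h⟩, h'⟩

/-- multiples of `d²` -/
def A (c : G) (X d : ℕ) : ℕ := ((Icc 1 X).filter fun m => P c m ∧ d ^ 2 ∣ m).card

theorem A_le (c : G) {X d : ℕ} (hd : d ≠ 0) : A c X d ≤ X / d ^ 2 := by
  have hd2 : 0 < d ^ 2 := by positivity
  have h : ((Icc 1 X).filter fun m => P c m ∧ d ^ 2 ∣ m) ⊆
      (Icc 1 (X / d ^ 2)).image fun k => d ^ 2 * k := by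
    intro m hm
    simp only [mem_filter, mem_Icc] at hm
    obtain ⟨⟨h1, h2⟩, _, k, hk⟩ := hm
    simp only [mem_image, mem_Icc]
    refine ⟨k, ⟨?_, ?_⟩, hk.symm⟩
    · rcases Nat.eq_zero_or_pos k with h0 | h0
      · subst h0; simp at hk; omega
      · exact h0
    · rw [Nat.le_div_iff_mul_le hd2, mul_comm, ← hk]
      exact h2
  unfold A
  refine (card_le_card h).trans (card_image_le.trans ?_)
  simp

theorem A_eq (c : G) {X d : ℕ} (hd : d.Coprime 30) : A c X d = Nat.count (P c) (X / d ^ 2 + 1) := by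
  have hd0 : d ≠ 0 := by
    rintro rfl
    revert hd
    decide
  have hd2 : 0 < d ^ 2 := by positivity
  rw [Nat.count_eq_card_filter_range]
  have h : ((Icc 1 X).filter fun m => P c m ∧ d ^ 2 ∣ m) =
      ((range (X / d ^ 2 + 1)).filter (P c)).image fun k => d ^ 2 * k := by
    ext m
    simp only [mem_filter, mem_Icc, mem_image, mem_range]
    constructor
    · rintro ⟨⟨h1, h2⟩, h3, k, hk⟩
      refine ⟨k, ⟨?_, ?_⟩, hk.symm⟩
      · rw [Nat.lt_succ_iff, Nat.le_div_iff_mul_le hd2, mul_comm, ← hk]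
        exact h2
      · rw [hk] at h3
        exact (P_sq_mul hd).1 h3
    · rintro ⟨k, ⟨h1, h2⟩, rfl⟩
      have hk0 : k ≠ 0 := by
        rintro rfl
        exact not_P_zero c h2
      rw [Nat.lt_succ_iff, Nat.le_div_iff_mul_le hd2, mul_comm] at h1
      exact ⟨⟨Nat.one_le_iff_ne_zero.2 (mul_ne_zero hd2.ne' hk0), h1⟩, (P_sq_mul hd).2 h2,
        Dvd.intro _ rfl⟩
  unfold A
  rw [h, card_image_of_injective]
  intro a b hab
  exact Nat.eq_of_mul_eq_mul_left hd2 hab

theorem A_zero (c : G) {X d : ℕ} (hd : ¬ d.Coprime 30) : A c X d = 0 := by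
  unfold A
  rw [card_eq_zero, filter_eq_empty_iff]
  rintro m hm ⟨⟨h1, _⟩, h2⟩
  apply hd
  have h3 : d ∣ m := (Dvd.intro_left (d ^ 1) (by ring)).trans h2
  exact h1.coprime_dvd_left h3

open Classical in
theorem card_Fam (c : G) (X : ℕ) :
    ((Fam c X).card : ℤ) = ∑ d ∈ Icc 1 X, μ d * (A c X d : ℤ) := by
  have e1 : Fam c X = ((Icc 1 X).filter (P c)).filter Squarefree := by
    ext m
    have e0 : m ∈ Fam c X ↔ m < X + 1 ∧ IsFam c m := by
      unfold Fam
      rw [mem_filter, mem_range]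
    rw [e0, mem_filter, mem_filter, mem_Icc]
    constructor
    · rintro ⟨h1, h2, h3, h4⟩
      exact ⟨⟨⟨Nat.one_le_iff_ne_zero.2 h2.ne_zero, by omega⟩, h3, h4⟩, h2⟩
    · rintro ⟨⟨⟨h1, h2⟩, h3, h4⟩, h5⟩
      exact ⟨by omega, h5, h3, h4⟩
  rw [e1, card_filter]
  push_cast
  have e2 : ∀ m ∈ (Icc 1 X).filter (P c), (if Squarefree m then (1 : ℤ) else 0) =
      ∑ d ∈ Icc 1 X, if d ^ 2 ∣ m then μ d else 0 := by
    intro m hm
    simp only [mem_filter, mem_Icc] at hm
    rw [← sum_moebius (by omega) hm.1.2, sum_filter]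
  rw [sum_congr rfl e2, sum_comm]
  refine sum_congr rfl fun d _ => ?_
  rw [← sum_filter, sum_const, filter_filter, nsmul_eq_mul, mul_comm]
  rfl

/-- the terms of the limit -/
noncomputable def gd (d : ℕ) : ℝ := if d.Coprime 30 then (μ d : ℝ) / (60 * d ^ 2) else 0

/-- the density -/
noncomputable def κ : ℝ := ∑' d, gd d

theorem abs_moebius_le' (d : ℕ) : |(μ d : ℝ)| ≤ 1 := by
  have := ArithmeticFunction.abs_moebius_le_one (n := d)
  exact_mod_cast this

theorem summable_inv_sq : Summable fun d : ℕ => (1 : ℝ) / d ^ 2 :=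
  Real.summable_one_div_nat_pow.2 (by norm_num)

theorem abs_gd_le (d : ℕ) : |gd d| ≤ 1 / 60 * (1 / d ^ 2) := by
  unfold gd
  split_ifs
  · rw [abs_div, abs_of_nonneg (show (0 : ℝ) ≤ 60 * d ^ 2 by positivity)]
    rcases Nat.eq_zero_or_pos d with h | h
    · subst h; simp
    · have h1 : (0 : ℝ) < 60 * d ^ 2 := by positivity
      rw [div_le_iff₀ h1]
      have h2 : 1 / 60 * (1 / (d : ℝ) ^ 2) * (60 * d ^ 2) = 1 := by
        have : (d : ℝ) ≠ 0 := by positivity
        field_simp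
      rw [h2]
      exact abs_moebius_le' d
  · rw [abs_zero]; positivity

theorem summable_gd : Summable gd :=
  Summable.of_abs (Summable.of_nonneg_of_le (fun _ => abs_nonneg _) abs_gd_le
    (summable_inv_sq.mul_left _))

theorem κ_pos : 0 < κ := by
  have h1 := summable_gd.sum_add_tsum_nat_add 2
  have h2 : ∑ i ∈ range 2, gd i = 1 / 60 := by
    rw [sum_range_succ, sum_range_one]
    have e0 : gd 0 = 0 := by simp [gd]
    have e1 : gd 1 = 1 / 60 := by simp [gd]
    rw [e0, e1, zero_add]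
  have h3 : |∑' i, gd (i + 2)| ≤ 1 / 60 * (Real.pi ^ 2 / 6 - 1) := by
    have s1 : Summable fun i : ℕ => 1 / 60 * (1 / ((i + 2 : ℕ) : ℝ) ^ 2) :=
      ((summable_nat_add_iff 2).2 summable_inv_sq).mul_left _
    have t1 : ∑' i : ℕ, 1 / 60 * (1 / ((i + 2 : ℕ) : ℝ) ^ 2) = 1 / 60 * (Real.pi ^ 2 / 6 - 1) := by
      rw [tsum_mul_left]
      congr 1
      have h4 := summable_inv_sq.sum_add_tsum_nat_add 2
      rw [hasSum_zeta_two.tsum_eq, sum_range_succ, sum_range_one] at h4
      have e : (1 : ℝ) / ((0 : ℕ) : ℝ) ^ 2 + 1 / ((1 : ℕ) : ℝ) ^ 2 = 1 := by norm_num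
      rw [e] at h4
      linarith
    rw [← t1]
    have s2 : Summable fun i : ℕ => |gd (i + 2)| :=
      Summable.of_nonneg_of_le (fun _ => abs_nonneg _) (fun i => abs_gd_le (i + 2)) s1
    have h5 : ‖∑' i, gd (i + 2)‖ ≤ ∑' i, ‖gd (i + 2)‖ := norm_tsum_le_tsum_norm s2
    exact h5.trans (s2.tsum_le_tsum (fun i => abs_gd_le (i + 2)) s1)
  have h6 : Real.pi ^ 2 / 6 < 2 := by
    have := Real.pi_lt_d2
    have := Real.pi_pos
    nlinarith
  have h7 := neg_abs_le (∑' i, gd (i + 2))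
  have h8 : κ = 1 / 60 + ∑' i, gd (i + 2) := by
    unfold κ
    rw [← h1, h2]
  rw [h8]
  linarith

theorem tendsto_A (c : G) (d : ℕ) :
    Tendsto (fun X : ℕ => (μ d : ℝ) * A c X d / X) atTop (𝓝 (gd d)) := by
  unfold gd
  split_ifs with hd
  · have hd0 : d ≠ 0 := by
      rintro rfl
      revert hd
      decide
    have hd2 : (0 : ℝ) < (d : ℝ) ^ 2 := by positivity
    have h1 : Tendsto (fun X : ℕ => (A c X d : ℝ) / X) atTop (𝓝 (1 / (60 * d ^ 2))) := by
      rw [Metric.tendsto_atTop]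
      intro ε hε
      obtain ⟨N, hN⟩ := exists_nat_gt (6 / ε)
      refine ⟨N + 1, fun X hX => ?_⟩
      have hX0 : (0 : ℝ) < X := by
        have : 0 < X := by omega
        exact_mod_cast this
      have hXN : (N : ℝ) < X := by exact_mod_cast (by omega : N < X)
      rw [Real.dist_eq, A_eq c hd]
      have b1 := count_bound c (X / d ^ 2 + 1)
      have b2 : |((X / d ^ 2 + 1 : ℕ) : ℝ) - X / d ^ 2| ≤ 1 := by
        have e1 : ((X / d ^ 2 : ℕ) : ℝ) = ⌊(X : ℝ) / ((d ^ 2 : ℕ) : ℝ)⌋₊ := by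
          rw [Nat.floor_div_natCast, Nat.floor_natCast]
        have c1 : ((X / d ^ 2 : ℕ) : ℝ) ≤ X / d ^ 2 := by
          have := @Nat.cast_div_le ℝ _ _ _ X (d ^ 2)
          push_cast at this
          exact this
        have c2 : (X : ℝ) / d ^ 2 < ((X / d ^ 2 : ℕ) : ℝ) + 1 := by
          rw [e1]
          have := Nat.lt_floor_add_one ((X : ℝ) / ((d ^ 2 : ℕ) : ℝ))
          push_cast at this ⊢
          exact this
        push_cast at c1 c2 ⊢
        rw [abs_le]
        constructor <;> linarith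
      have b3 : |(Nat.count (P c) (X / d ^ 2 + 1) : ℝ) - X / (60 * d ^ 2)| ≤ 5 := by
        have e : (X : ℝ) / (60 * d ^ 2) = X / d ^ 2 / 60 := by
          field_simp
        rw [e]
        rw [abs_le] at b1 b2 ⊢
        constructor <;> linarith [b1.1, b1.2, b2.1, b2.2]
      have e2 : (Nat.count (P c) (X / d ^ 2 + 1) : ℝ) / X - 1 / (60 * d ^ 2) =
          ((Nat.count (P c) (X / d ^ 2 + 1) : ℝ) - X / (60 * d ^ 2)) / X := by
        field_simp
      rw [e2, abs_div, abs_of_pos hX0, div_lt_iff₀ hX0]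
      have h5 : 6 < ε * X := by
        rw [div_lt_iff₀ hε] at hN
        nlinarith
      linarith
    have h2 := h1.const_mul (μ d : ℝ)
    refine (h2.congr fun X => ?_).trans (le_of_eq ?_)
    · ring
    · rw [mul_one_div]
  · have : (fun X : ℕ => (μ d : ℝ) * A c X d / X) = fun _ => 0 := by
      funext X
      rw [A_zero c hd]
      simp
    rw [this]
    exact tendsto_const_nhds

/-- **The density of each class is `κ`.** -/
theorem tendsto_Fam (c : G) :
    Tendsto (fun X : ℕ => ((Fam c X).card : ℝ) / X) atTop (𝓝 κ) := by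
  have key : Tendsto (fun X : ℕ => ∑' d, (μ d : ℝ) * A c X d / X) atTop (𝓝 (∑' d, gd d)) := by
    refine tendsto_tsum_of_dominated_convergence (bound := fun d : ℕ => (1 : ℝ) / d ^ 2)
      summable_inv_sq (fun d => tendsto_A c d) (Eventually.of_forall fun X d => ?_)
    rw [Real.norm_eq_abs]
    rcases Nat.eq_zero_or_pos d with h | h
    · subst h; simp
    rcases Nat.eq_zero_or_pos X with hX | hX
    · subst hX; simp
    have hX0 : (0 : ℝ) < X := by exact_mod_cast hX
    rw [abs_div, abs_mul, abs_of_pos hX0, div_le_iff₀ hX0, Nat.abs_cast]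
    have h1 : (A c X d : ℝ) ≤ X / d ^ 2 := by
      have h2 : (A c X d : ℝ) ≤ ((X / d ^ 2 : ℕ) : ℝ) := by exact_mod_cast A_le c h.ne'
      have h3 := @Nat.cast_div_le ℝ _ _ _ X (d ^ 2)
      push_cast at h3
      exact h2.trans h3
    calc |(μ d : ℝ)| * A c X d ≤ 1 * (X / d ^ 2) :=
          mul_le_mul (abs_moebius_le' d) h1 (Nat.cast_nonneg _) zero_le_one
      _ = 1 / (d : ℝ) ^ 2 * X := by ring
  refine key.congr fun X => ?_
  rw [tsum_eq_sum (s := Icc 1 X)]
  · have h := card_Fam c X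
    have h' : ((Fam c X).card : ℝ) = ∑ d ∈ Icc 1 X, (μ d : ℝ) * (A c X d : ℝ) := by
      exact_mod_cast h
    rw [h', sum_div]
  · intro d hd
    rw [mem_Icc, not_and_or] at hd
    rcases hd with hd | hd
    · have : d = 0 := by omega
      subst this; simp
    · have hd0 : d ≠ 0 := by omega
      have h1 := A_le c (X := X) hd0
      have h2 : X / d ^ 2 = 0 := by
        apply Nat.div_eq_of_lt
        have : d ≤ d ^ 2 := Nat.le_self_pow two_ne_zero d
        omega
      have h3 : A c X d = 0 := by omega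
      rw [h3]
      simp

end Vale.Agent.P017.H998
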