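import Vale.Agent.P017.H998.Dens

/-!
# Counting the imaginary quadratic fields by the classes

`ℚ(√-d)`, `d` squarefree, has a discriminant of absolute value `discAbs d`.
-/

namespace Vale.Agent.P017.H998

open Finset Filter Topology Vale.Agent.P017.H509

/-- the absolute value of the discriminant of `ℚ(√-d)`, `d` squarefree -/
def discAbs (d : ℕ) : ℕ := if d % 4 = 3 then d else 4 * d

open Classical in
/-- the squarefree `d > 0` such that the discriminant of `ℚ(√-d)` is at most `X` in absolute value -/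
noncomputable def fields (X : ℕ) : Finset ℕ :=
  (range (X + 1)).filter fun d => Squarefree d ∧ discAbs d ≤ X

theorem mem_fields {X d : ℕ} : d ∈ fields X ↔ Squarefree d ∧ discAbs d ≤ X := by
  unfold fields
  rw [mem_filter, mem_range]
  constructor
  · exact fun h => h.2
  · refine fun h => ⟨?_, h⟩
    have := h.2
    unfold discAbs at this
    split_ifs at this <;> omega

/-- `1` or `4` -/
def tt (e : S) (c : G) : ℕ := if (val e * (if c.1 = 1 then 3 else 1)) % 4 = 3 then 1 else 4

theorem tt_pos (e : S) (c : G) : 0 < tt e c := by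
  unfold tt
  split_ifs <;> norm_num

theorem val_pos (e : S) : 0 < val e := by revert e; decide

theorem val_dvd (e : S) : val e ∣ 30 := by revert e; decide

theorem discAbs_mul {e : S} {c : G} {m : ℕ} (hm : P c m) :
    discAbs (val e * m) = val e * tt e c * m := by
  obtain ⟨h1, rfl⟩ := hm
  have h2 : m % 2 = 1 := by
    have : m.Coprime 2 := h1.coprime_dvd_right (by norm_num)
    rcases Nat.mod_two_eq_zero_or_one m with h | h
    · exfalso
      have := Nat.Coprime.eq_one_of_dvd this.symm (Nat.dvd_of_mod_eq_zero h)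
      omega
    · exact h
  have h3 : (val e * m) % 4 = (val e * (if (cl m).1 = 1 then 3 else 1)) % 4 := by
    have h4 : m % 4 = 1 ∨ m % 4 = 3 := by omega
    rcases h4 with h | h
    · have : (cl m).1 = 0 := by simp [cl, h]
      rw [this, Nat.mul_mod, h]
      simp
    · have : (cl m).1 = 1 := by simp [cl, h]
      rw [this, Nat.mul_mod, h]
      simp [Nat.mul_mod]
  unfold discAbs tt
  rw [h3]
  split_ifs <;> ring

/-- the exponents of `2, 3, 5` in a squarefree number -/
def ed (d : ℕ) : S := (if 2 ∣ d then 1 else 0, if 3 ∣ d then 1 else 0, if 5 ∣ d then 1 else 0)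

theorem ed_mul {e : S} {m : ℕ} (hm : m.Coprime 30) : ed (val e * m) = e := by
  have h2 : m.Coprime 2 := hm.coprime_dvd_right (by norm_num)
  have h3 : m.Coprime 3 := hm.coprime_dvd_right (by norm_num)
  have h5 : m.Coprime 5 := hm.coprime_dvd_right (by norm_num)
  unfold ed
  have e2 : 2 ∣ val e * m ↔ 2 ∣ val e := Nat.Coprime.dvd_mul_right h2.symm
  have e3 : 3 ∣ val e * m ↔ 3 ∣ val e := Nat.Coprime.dvd_mul_right h3.symm
  have e5 : 5 ∣ val e * m ↔ 5 ∣ val e := Nat.Coprime.dvd_mul_right h5.symm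
  simp only [e2, e3, e5]
  clear e2 e3 e5
  revert e
  decide

theorem val_ed_dvd (d : ℕ) : val (ed d) ∣ d := by
  unfold H509.val ed
  have h : ∀ p : ℕ, ((if (if p ∣ d then (1 : ZMod 2) else 0) = 1 then p else 1) : ℕ) ∣ d := by
    intro p
    by_cases h : p ∣ d
    · simp [h]
    · simp [h]
  have c23 : Nat.Coprime (if (if 2 ∣ d then (1 : ZMod 2) else 0) = 1 then 2 else 1)
      (if (if 3 ∣ d then (1 : ZMod 2) else 0) = 1 then 3 else 1) := by
    split_ifs <;> norm_num
  have c235 : Nat.Coprime ((if (if 2 ∣ d then (1 : ZMod 2) else 0) = 1 then 2 else 1) *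
      (if (if 3 ∣ d then (1 : ZMod 2) else 0) = 1 then 3 else 1))
      (if (if 5 ∣ d then (1 : ZMod 2) else 0) = 1 then 5 else 1) := by
    split_ifs <;> norm_num
  exact c235.mul_dvd_of_dvd_of_dvd (c23.mul_dvd_of_dvd_of_dvd (h 2) (h 3)) (h 5)

/-- the part prime to `30` -/
def md (d : ℕ) : ℕ := d / val (ed d)

theorem val_md (d : ℕ) : val (ed d) * md d = d := Nat.mul_div_cancel' (val_ed_dvd d)

theorem md_mul {e : S} {m : ℕ} (hm : m.Coprime 30) : md (val e * m) = m := by
  unfold md
  rw [ed_mul hm]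
  exact Nat.mul_div_cancel_left m (val_pos e)

theorem md_cop {d : ℕ} (hd : Squarefree d) : (md d).Coprime 30 := by
  have h0 := val_md d
  have hsq : Squarefree (val (ed d) * md d) := by rwa [h0]
  have hcop : (val (ed d)).Coprime (md d) := Nat.coprime_of_squarefree_mul hsq
  have key : ∀ p : ℕ, p.Prime → p ∣ 30 → (p ∣ d → p ∣ val (ed d)) → ¬ p ∣ md d := by
    intro p hp _ h1 h2
    have h3 : p ∣ val (ed d) := h1 (h0 ▸ Dvd.dvd.mul_left h2 _)
    exact Nat.not_coprime_of_dvd_of_dvd hp.one_lt h3 h2 hcop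
  have k2 : ¬ 2 ∣ md d := by
    refine key 2 Nat.prime_two (by norm_num) fun h => ?_
    have : (ed d).1 = 1 := by simp [ed, h]
    unfold H509.val
    rw [if_pos this]
    exact Dvd.dvd.mul_right (Dvd.dvd.mul_right dvd_rfl _) _
  have k3 : ¬ 3 ∣ md d := by
    refine key 3 Nat.prime_three (by norm_num) fun h => ?_
    have : (ed d).2.1 = 1 := by simp [ed, h]
    unfold H509.val
    rw [if_pos this]
    exact Dvd.dvd.mul_right (Dvd.dvd.mul_left dvd_rfl _) _
  have k5 : ¬ 5 ∣ md d := by
    refine key 5 Nat.prime_five (by norm_num) fun h => ?_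
    have : (ed d).2.2 = 1 := by simp [ed, h]
    unfold H509.val
    rw [if_pos this]
    exact Dvd.dvd.mul_left dvd_rfl _
  have c2 : (md d).Coprime 2 := ((Nat.Prime.coprime_iff_not_dvd Nat.prime_two).2 k2).symm
  have c3 : (md d).Coprime 3 := ((Nat.Prime.coprime_iff_not_dvd Nat.prime_three).2 k3).symm
  have c5 : (md d).Coprime 5 := ((Nat.Prime.coprime_iff_not_dvd Nat.prime_five).2 k5).symm
  exact Nat.Coprime.mul_right (Nat.Coprime.mul_right c2 c3) c5

theorem md_sqf {d : ℕ} (hd : Squarefree d) : Squarefree (md d) :=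
  hd.squarefree_of_dvd ⟨val (ed d), by rw [mul_comm, val_md]⟩

theorem sqf_mul {e : S} {m : ℕ} (hm : Squarefree m) (hc : m.Coprime 30) :
    Squarefree (val e * m) := by
  have h1 : (val e).Coprime m := (hc.coprime_dvd_right (val_dvd e)).symm
  rw [Nat.squarefree_mul h1]
  refine ⟨?_, hm⟩
  have h30 : Squarefree 30 := by
    have : (30 : ℕ) = 2 * 3 * 5 := by norm_num
    rw [this, Nat.squarefree_mul (by norm_num), Nat.squarefree_mul (by norm_num)]
    exact ⟨⟨Nat.prime_two.squarefree, Nat.prime_three.squarefree⟩, Nat.prime_five.squarefree⟩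
  exact h30.squarefree_of_dvd (val_dvd e)

open Classical in
theorem mem_Fam {c : G} {X m : ℕ} : m ∈ Fam c X ↔ m ≤ X ∧ Squarefree m ∧ P c m := by
  unfold Fam
  rw [mem_filter, mem_range, Nat.lt_succ_iff]
  rfl

/-- the fields in the classes -/
theorem card_fields (Q : ℕ → Prop) [DecidablePred Q] (X : ℕ) :
    ((fields X).filter Q).card = ∑ w : S × G,
      ((Fam w.2 (X / (val w.1 * tt w.1 w.2))).filter fun m => Q (val w.1 * m)).card := by
  rw [card_eq_sum_card_fiberwise (f := fun d => (ed d, cl (md d))) (t := univ)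
    (fun _ _ => mem_univ _)]
  refine sum_congr rfl fun w _ => ?_
  obtain ⟨e, c⟩ := w
  have hpos : 0 < val e * tt e c := Nat.mul_pos (val_pos e) (tt_pos e c)
  have h : ((fields X).filter Q).filter (fun d => (ed d, cl (md d)) = (e, c)) =
      ((Fam c (X / (val e * tt e c))).filter fun m => Q (val e * m)).image
        fun m => val e * m := by
    ext d
    rw [mem_filter, mem_filter, mem_fields, mem_image]
    constructor
    · rintro ⟨⟨⟨h1, h2⟩, h3⟩, h4⟩
      rw [Prod.mk.injEq] at h4
      obtain ⟨rfl, rfl⟩ := h4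
      refine ⟨md d, ?_, val_md d⟩
      rw [mem_filter, mem_Fam]
      have hP : P (cl (md d)) (md d) := ⟨md_cop h1, rfl⟩
      refine ⟨⟨?_, md_sqf h1, hP⟩, by rwa [val_md]⟩
      rw [Nat.le_div_iff_mul_le hpos, mul_comm, ← discAbs_mul hP, val_md]
      exact h2
    · rintro ⟨m, hm, rfl⟩
      rw [mem_filter, mem_Fam] at hm
      obtain ⟨⟨h1, h2, h3⟩, h4⟩ := hm
      refine ⟨⟨⟨sqf_mul h2 h3.1, ?_⟩, h4⟩, ?_⟩
      · rw [discAbs_mul h3]
        rw [Nat.le_div_iff_mul_le hpos, mul_comm] at h1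
        exact h1
      · rw [ed_mul h3.1, md_mul h3.1, h3.2]
  rw [h, card_image_of_injective]
  intro a b hab
  exact Nat.eq_of_mul_eq_mul_left (val_pos e) hab

theorem tendsto_div_nat {k : ℕ} (hk : 0 < k) : Tendsto (fun X : ℕ => X / k) atTop atTop :=
  Nat.tendsto_div_const_atTop hk.ne'

/-- rescaling a density -/
theorem tendsto_scale {f : ℕ → ℝ} {l : ℝ} {k : ℕ} (hk : 0 < k)
    (h : Tendsto (fun X : ℕ => f X / X) atTop (𝓝 l)) :
    Tendsto (fun X : ℕ => f (X / k) / X) atTop (𝓝 (l / k)) := by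
  have h1 := h.comp (tendsto_div_nat hk)
  have hk0 : (0 : ℝ) < k := by exact_mod_cast hk
  have h2 : Tendsto (fun X : ℕ => (((X / k : ℕ) : ℝ)) / X) atTop (𝓝 (1 / k)) := by
    have h3 : Tendsto (fun X : ℕ => (1 : ℝ) / k - 1 / X) atTop (𝓝 (1 / k - 0)) :=
      tendsto_const_nhds.sub tendsto_one_div_atTop_nhds_zero_nat
    rw [sub_zero] at h3
    refine tendsto_of_tendsto_of_tendsto_of_le_of_le' h3 tendsto_const_nhds ?_ ?_
    · filter_upwards [eventually_gt_atTop 0] with X hX
      have hX0 : (0 : ℝ) < X := by exact_mod_cast hX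
      have h4 : (X : ℝ) / k < ((X / k : ℕ) : ℝ) + 1 := by
        rw [show ((X / k : ℕ) : ℝ) = ⌊(X : ℝ) / (k : ℝ)⌋₊ by
          rw [Nat.floor_div_natCast, Nat.floor_natCast]]
        exact Nat.lt_floor_add_one _
      rw [le_div_iff₀ hX0, sub_mul, one_div_mul_cancel hX0.ne']
      have e : 1 / (k : ℝ) * X = X / k := by ring
      rw [e]
      linarith
    · filter_upwards [eventually_gt_atTop 0] with X hX
      have hX0 : (0 : ℝ) < X := by exact_mod_cast hX
      rw [div_le_iff₀ hX0]
      have e : 1 / (k : ℝ) * X = X / k := by ring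
      rw [e]
      exact Nat.cast_div_le
  have h5 := h1.mul h2
  rw [mul_one_div] at h5
  refine h5.congr' ?_
  filter_upwards [eventually_ge_atTop k] with X hX
  have h6 : (0 : ℝ) < ((X / k : ℕ) : ℝ) := by
    have : 0 < X / k := Nat.div_pos hX hk
    exact_mod_cast this
  simp only [Function.comp]
  rw [div_mul_div_comm, mul_comm (f (X / k)), mul_div_mul_left _ _ h6.ne']

/-- the weight of a class -/
noncomputable def wt (w : S × G) : ℝ := 1 / (val w.1 * tt w.1 w.2 : ℕ)

theorem wt_pos (w : S × G) : 0 < wt w := by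
  unfold wt
  have : 0 < val w.1 * tt w.1 w.2 := Nat.mul_pos (val_pos _) (tt_pos _ _)
  positivity

theorem tendsto_class (w : S × G) : Tendsto (fun X : ℕ =>
    ((Fam w.2 (X / (val w.1 * tt w.1 w.2))).card : ℝ) / X) atTop (𝓝 (κ * wt w)) := by
  have h := tendsto_scale (k := val w.1 * tt w.1 w.2) (Nat.mul_pos (val_pos _) (tt_pos _ _))
    (tendsto_Fam w.2)
  unfold wt
  rw [mul_one_div]
  exact h

end Vale.Agent.P017.H998
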