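import Vale.Agent.P017.H998.Lower

/-!
# Summing over the classes
-/

namespace Vale.Agent.P017.H998

open Finset Filter Topology Vale.Agent.P017.H509

/-- the class of a squarefree `d` -/
def cw (d : ℕ) : S × G := (ed d, cl (md d))

theorem cw_mul {e : S} {m : ℕ} (hm : m.Coprime 30) : cw (val e * m) = (e, cl m) := by
  unfold cw
  rw [ed_mul hm, md_mul hm]

open Classical in
theorem card_W (W : Finset (S × G)) (Q : ℕ → Prop) (X : ℕ) :
    ((fields X).filter fun d => cw d ∈ W ∧ Q d).card = ∑ w ∈ W,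
      ((Fam w.2 (X / (val w.1 * tt w.1 w.2))).filter fun m => Q (val w.1 * m)).card := by
  rw [card_fields (fun d => cw d ∈ W ∧ Q d), ← sum_subset (subset_univ W)]
  · refine sum_congr rfl fun w hw => ?_
    congr 1
    refine filter_congr fun m hm => ?_
    rw [mem_Fam] at hm
    rw [cw_mul hm.2.2.1, hm.2.2.2]
    exact and_iff_right hw
  · intro w _ hw
    rw [card_eq_zero, filter_eq_empty_iff]
    intro m hm h
    rw [mem_Fam] at hm
    rw [cw_mul hm.2.2.1, hm.2.2.2] at h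
    exact hw h.1

open Classical in
theorem tendsto_W (W : Finset (S × G)) : Tendsto (fun X : ℕ =>
    (((fields X).filter fun d => cw d ∈ W).card : ℝ) / X) atTop (𝓝 (κ * ∑ w ∈ W, wt w)) := by
  have h1 : ∀ X : ℕ, (((fields X).filter fun d => cw d ∈ W).card : ℝ) / X =
      ∑ w ∈ W, ((Fam w.2 (X / (val w.1 * tt w.1 w.2))).card : ℝ) / X := by
    intro X
    have h2 := card_W W (fun _ => True) X
    simp only [and_true, filter_true] at h2
    rw [h2]
    push_cast
    rw [sum_div]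
  simp only [h1]
  rw [mul_sum]
  exact tendsto_finsetSum _ fun w _ => tendsto_class w

open Classical in
theorem lower_W (W : Finset (S × G)) (Q : ℕ → Prop) (hW : ∀ w ∈ W, Good w.1 w.2)
    (hM : ∀ w ∈ W, Moment w.1 w.2)
    (hQ : ∀ (e : S) (m : ℕ), Squarefree m → m.Coprime 30 → (e, cl m) ∈ W →
      Nat.card (V e m) = 2 → val e * m ≠ 1 → Q (val e * m)) {a : ℝ}
    (ha : a < ρ * (κ * ∑ w ∈ W, wt w)) :
    ∀ᶠ X : ℕ in atTop, a * X ≤ (((fields X).filter fun d => cw d ∈ W ∧ Q d).card : ℝ) := by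
  set s : ℝ := ρ * (κ * ∑ w ∈ W, wt w) with hs
  -- the error
  obtain ⟨ε, hε, hε2⟩ : ∃ ε : ℝ, 0 < ε ∧ (W.card + 1) * ε < (s - a) / 2 := by
    refine ⟨(s - a) / 4 / (W.card + 1), ?_, ?_⟩
    · have : 0 < s - a := by linarith
      positivity
    · rw [mul_div_cancel₀ _ (by positivity)]
      linarith
  choose! X0 hX0 using fun (w : S × G) (hw : w ∈ W) => lower (hW w hw) (hM w hw) hε
  have h1 : ∀ w ∈ W, ∀ᶠ X : ℕ in atTop, ρ * ((Fam w.2 (X / (val w.1 * tt w.1 w.2))).card : ℝ) -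
      ε * X ≤ (((Fam w.2 (X / (val w.1 * tt w.1 w.2))).filter fun m => Q (val w.1 * m)).card : ℝ) := by
    intro w hw
    have hk : 0 < val w.1 * tt w.1 w.2 := Nat.mul_pos (val_pos _) (tt_pos _ _)
    filter_upwards [(tendsto_div_nat hk).eventually_ge_atTop (X0 w)] with X hX
    refine le_trans ?_ ((hX0 w hw _ hX).trans ?_)
    · have h2 : (((X / (val w.1 * tt w.1 w.2) : ℕ)) : ℝ) ≤ X := by exact_mod_cast Nat.div_le_self _ _
      have h3 := mul_le_mul_of_nonneg_left h2 hε.le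
      linarith
    · have h2 : ((Fam w.2 (X / (val w.1 * tt w.1 w.2))).filter
          fun m => Nat.card (V w.1 m) = 2 ∧ val w.1 * m ≠ 1) ⊆
          ((Fam w.2 (X / (val w.1 * tt w.1 w.2))).filter fun m => Q (val w.1 * m)) := by
        intro m hm
        rw [mem_filter] at hm ⊢
        refine ⟨hm.1, ?_⟩
        have h3 := mem_Fam.1 hm.1
        refine hQ w.1 m h3.2.1 h3.2.2.1 ?_ hm.2.1 hm.2.2
        rw [h3.2.2.2]
        exact hw
      exact_mod_cast card_le_card h2
  have h2 : ∀ᶠ X : ℕ in atTop, ∀ w ∈ W, ρ * ((Fam w.2 (X / (val w.1 * tt w.1 w.2))).card : ℝ) -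
      ε * X ≤ (((Fam w.2 (X / (val w.1 * tt w.1 w.2))).filter fun m => Q (val w.1 * m)).card : ℝ) :=
    (eventually_all_finset W).2 h1
  have h3 : ∀ᶠ X : ℕ in atTop, (s - (s - a) / 2) / ρ <
      (((fields X).filter fun d => cw d ∈ W).card : ℝ) / X := by
    refine (tendsto_W W).eventually_const_lt ?_
    have hρ : (0 : ℝ) < ρ := by unfold ρ; norm_num
    rw [div_lt_iff₀ hρ, mul_comm, ← hs]
    linarith
  filter_upwards [h2, h3, eventually_gt_atTop 0] with X h4 h5 hX
  have hX0 : (0 : ℝ) < X := by exact_mod_cast hX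
  have hρ : (0 : ℝ) < ρ := by unfold ρ; norm_num
  rw [card_W]
  push_cast
  refine le_trans ?_ (sum_le_sum h4)
  rw [sum_sub_distrib, sum_const, nsmul_eq_mul, ← mul_sum]
  have h6 := card_W W (fun _ => True) X
  simp only [and_true, filter_true] at h6
  rw [h6] at h5
  push_cast at h5
  rw [lt_div_iff₀ hX0, div_mul_eq_mul_div, div_lt_iff₀ hρ] at h5
  nlinarith [mul_pos hε hX0]

open Classical in
/-- a proportion in a set of classes -/
theorem ratio_W (U W : Finset (S × G)) (hWU : W ⊆ U) (Q : ℕ → Prop)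
    (hW : ∀ w ∈ W, Good w.1 w.2) (hM : ∀ w ∈ W, Moment w.1 w.2)
    (hQ : ∀ (e : S) (m : ℕ), Squarefree m → m.Coprime 30 → (e, cl m) ∈ W →
      Nat.card (V e m) = 2 → val e * m ≠ 1 → Q (val e * m)) {b : ℝ}
    (hb0 : 0 < b) (hb : b * ∑ w ∈ U, wt w < ρ * ∑ w ∈ W, wt w) :
    ∀ᶠ X : ℕ in atTop, b * (((fields X).filter fun d => cw d ∈ U).card : ℝ) ≤
      (((fields X).filter fun d => cw d ∈ U ∧ Q d).card : ℝ) := by
  set a : ℝ := κ * ((b * ∑ w ∈ U, wt w) + ρ * ∑ w ∈ W, wt w) / 2 with ha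
  have h1 : a < ρ * (κ * ∑ w ∈ W, wt w) := by
    have := mul_lt_mul_of_pos_left hb κ_pos
    rw [ha]
    linarith
  have h2 : κ * ∑ w ∈ U, wt w < a / b := by
    rw [lt_div_iff₀ hb0]
    have := mul_lt_mul_of_pos_left hb κ_pos
    rw [ha]
    linarith
  filter_upwards [lower_W W Q hW hM hQ h1, (tendsto_W U).eventually_lt_const h2,
    eventually_gt_atTop 0] with X h3 h4 hX
  have hX0 : (0 : ℝ) < X := by exact_mod_cast hX
  have h5 : b * (((fields X).filter fun d => cw d ∈ U).card : ℝ) ≤ a * X := by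
    rw [div_lt_div_iff₀ hX0 hb0] at h4
    linarith
  refine h5.trans (h3.trans ?_)
  have h6 : ((fields X).filter fun d => cw d ∈ W ∧ Q d) ⊆
      ((fields X).filter fun d => cw d ∈ U ∧ Q d) := by
    intro d hd
    rw [mem_filter] at hd ⊢
    exact ⟨hd.1, hWU hd.2.1, hd.2.2⟩
  exact_mod_cast card_le_card h6

/-! ### The weights -/

/-- `120 * wt` -/
def wn (w : S × G) : ℕ := 120 / (val w.1 * tt w.1 w.2)

theorem wt_eq (w : S × G) : wt w = wn w / 120 := by
  have h : wn w * (val w.1 * tt w.1 w.2) = 120 := by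
    have : ∀ w : S × G, wn w * (val w.1 * tt w.1 w.2) = 120 := by decide +kernel
    exact this w
  have h1 : ((wn w : ℝ)) * (val w.1 * tt w.1 w.2 : ℕ) = 120 := by exact_mod_cast h
  have h2 : (0 : ℝ) < (val w.1 * tt w.1 w.2 : ℕ) := by
    have : 0 < val w.1 * tt w.1 w.2 := Nat.mul_pos (val_pos _) (tt_pos _ _)
    exact_mod_cast this
  unfold wt
  rw [div_eq_div_iff h2.ne' (by norm_num)]
  linarith

instance (w : S × G) : Decidable (Good w.1 w.2) := inferInstance

/-- the classes with root number `+1` -/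
def goodW : Finset (S × G) := univ.filter fun w => Good w.1 w.2

theorem weights : 48 * ∑ w ∈ goodW, wn w = 25 * ∑ w : S × G, wn w := by decide +kernel

end Vale.Agent.P017.H998
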