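import Vale.Agent.P017.H998.Fields

/-!
# From the moments to the lower density
-/

namespace Vale.Agent.P017.H998

open Finset Filter Topology Vale.Agent.P017.H509

/-! ### `V` has at least two elements -/

theorem val_eq_one {e : S} (h : val e = 1) : e = 0 := by
  revert e
  decide

theorem odd_of_cop {m : ℕ} (h1 : m.Coprime 30) : m % 2 = 1 ∧ m % 3 ≠ 0 ∧ m % 5 ≠ 0 := by
  have h : ∀ p : ℕ, 1 < p → p ∣ 30 → m % p ≠ 0 := by
    intro p hp hp30 h0
    have := Nat.Coprime.eq_one_of_dvd (h1.coprime_dvd_right hp30).symm (Nat.dvd_of_mod_eq_zero h0)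
    omega
  have h2 := h 2 (by norm_num) (by norm_num)
  exact ⟨by omega, h 3 (by norm_num) (by norm_num), h 5 (by norm_num) (by norm_num)⟩

theorem cl_mul' {a b : ℕ} (ha : a.Coprime 30) (hb : b.Coprime 30) : cl (a * b) = cl a + cl b := by
  obtain ⟨a2, a3, a5⟩ := odd_of_cop ha
  obtain ⟨b2, b3, b5⟩ := odd_of_cop hb
  have e4 : (if (a * b) % 4 = 3 then (1 : ZMod 2) else 0) =
      (if a % 4 = 3 then 1 else 0) + if b % 4 = 3 then 1 else 0 := by
    have h1 : a % 4 = 1 ∨ a % 4 = 3 := by omega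
    have h2 : b % 4 = 1 ∨ b % 4 = 3 := by omega
    rcases h1 with h1 | h1 <;> rcases h2 with h2 | h2 <;> rw [Nat.mul_mod, h1, h2] <;> decide
  have e8 : (if (a * b) % 8 = 3 ∨ (a * b) % 8 = 5 then (1 : ZMod 2) else 0) =
      (if a % 8 = 3 ∨ a % 8 = 5 then 1 else 0) + if b % 8 = 3 ∨ b % 8 = 5 then 1 else 0 := by
    have h1 : a % 8 = 1 ∨ a % 8 = 3 ∨ a % 8 = 5 ∨ a % 8 = 7 := by omega
    have h2 : b % 8 = 1 ∨ b % 8 = 3 ∨ b % 8 = 5 ∨ b % 8 = 7 := by omega
    rcases h1 with h1 | h1 | h1 | h1 <;> rcases h2 with h2 | h2 | h2 | h2 <;>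
      rw [Nat.mul_mod, h1, h2] <;> decide
  have e3 : (if (a * b) % 3 = 2 then (1 : ZMod 2) else 0) =
      (if a % 3 = 2 then 1 else 0) + if b % 3 = 2 then 1 else 0 := by
    have h1 : a % 3 = 1 ∨ a % 3 = 2 := by omega
    have h2 : b % 3 = 1 ∨ b % 3 = 2 := by omega
    rcases h1 with h1 | h1 <;> rcases h2 with h2 | h2 <;> rw [Nat.mul_mod, h1, h2] <;> decide
  have e5 : (if (a * b) % 5 = 2 ∨ (a * b) % 5 = 3 then (1 : ZMod 2) else 0) =
      (if a % 5 = 2 ∨ a % 5 = 3 then 1 else 0) + if b % 5 = 2 ∨ b % 5 = 3 then 1 else 0 := by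
    have h1 : a % 5 = 1 ∨ a % 5 = 2 ∨ a % 5 = 3 ∨ a % 5 = 4 := by omega
    have h2 : b % 5 = 1 ∨ b % 5 = 2 ∨ b % 5 = 3 ∨ b % 5 = 4 := by omega
    rcases h1 with h1 | h1 | h1 | h1 <;> rcases h2 with h2 | h2 | h2 | h2 <;>
      rw [Nat.mul_mod, h1, h2] <;> decide
  unfold cl
  rw [e4, e8, e3, e5]
  rfl

theorem cl_prod' {T : Finset ℕ} (h : ∀ p ∈ T, p.Coprime 30) :
    cl (∏ p ∈ T, p) = ∑ p ∈ T, cl p := by
  classical
  induction T using Finset.induction_on with
  | empty => simp; decide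
  | insert p T hp ih =>
    rw [prod_insert hp, sum_insert hp, cl_mul' (h p (mem_insert_self _ _)), ih]
    · exact fun q hq => h q (mem_insert_of_mem hq)
    · exact Nat.Coprime.prod_left fun q hq => h q (mem_insert_of_mem hq)

theorem inL_self (e : S) (c : G) (h : Good e c) : inL e c e c := by
  revert e c
  decide

/-- the element `|D|` of `V` -/
def dd (e : S) (m : ℕ) : S × (m.primeFactors → ZMod 2) := (e, fun _ => 1)

theorem dd_mem {e : S} {m : ℕ} (hsq : Squarefree m) (hm : m.Coprime 30) (hG : Good e (cl m)) :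
    dd e m ∈ V e m := by
  unfold V
  rw [Submodule.mem_inf]
  constructor
  · rw [Submodule.mem_iInf]
    intro p
    rw [LinearMap.mem_ker]
    change pr e (cl p) + (∑ q, if q = p then 0 else 1 * lg q p) +
      1 * (pr e (cl p) + ∑ q : m.primeFactors, if q = p then 0 else lg q p) = 0
    simp only [one_mul]
    exact CharTwo.add_self_eq_zero _
  · rw [Submodule.mem_comap]
    have h1 : locl m (dd e m) = (e, cl m) := by
      change (e, ∑ p : m.primeFactors, (1 : ZMod 2) • cl p) = (e, cl m)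
      congr 1
      simp only [one_smul]
      rw [Finset.sum_coe_sort m.primeFactors (fun p => cl p), ← cl_prod',
        Nat.prod_primeFactors_of_squarefree hsq]
      intro p hp
      exact hm.coprime_dvd_left (Nat.dvd_of_mem_primeFactors hp)
    rw [h1]
    exact inL_self e (cl m) hG

theorem card_V_pow (e : S) (m : ℕ) : ∃ j : ℕ, Nat.card (V e m) = 2 ^ j := by
  refine ⟨Module.finrank (ZMod 2) (V e m), ?_⟩
  rw [Module.natCard_eq_pow_finrank (K := ZMod 2), Nat.card_zmod]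

theorem dd_ne_zero {e : S} {m : ℕ} (hsq : Squarefree m) (h : ¬ (e = 0 ∧ m = 1)) : dd e m ≠ 0 := by
  intro h0
  refine h ⟨congrArg Prod.fst h0, ?_⟩
  by_contra hm1
  obtain ⟨p, hp⟩ := Nat.nonempty_primeFactors.2
    (lt_of_le_of_ne (Nat.one_le_iff_ne_zero.2 hsq.ne_zero) (Ne.symm hm1))
  have h1 := congrFun (congrArg Prod.snd h0) ⟨p, hp⟩
  change (1 : ZMod 2) = 0 at h1
  exact absurd h1 (by decide)

theorem card_V_ge {e : S} {m : ℕ} (hsq : Squarefree m) (hm : m.Coprime 30)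
    (hG : Good e (cl m)) (h : ¬ (e = 0 ∧ m = 1)) : ∃ r : ℕ, Nat.card (V e m) = 2 ^ (r + 1) := by
  obtain ⟨j, hj⟩ := card_V_pow e m
  cases j with
  | zero =>
    exfalso
    rw [pow_zero] at hj
    have h1 := (Nat.card_eq_one_iff_unique.1 hj).1
    have h2 : (⟨dd e m, dd_mem hsq hm hG⟩ : V e m) = 0 := Subsingleton.elim _ _
    exact dd_ne_zero hsq h (congrArg Subtype.val h2)
  | succ r => exact ⟨r, hj⟩

/-! ### The Bonferroni polynomial -/

/-- `∏_{i < k} (x - 2 ^ i)` -/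
noncomputable def mm (k : ℕ) (x : ℝ) : ℝ := ∏ i ∈ range k, (x - 2 ^ i)

/-- the coefficients -/
noncomputable def aa (k : ℕ) : ℝ :=
  if k = 0 then 1 else if k = 1 then -1 else if k = 2 then 1 / 3 else if k = 3 then -1 / 21
  else if k = 4 then 1 / 315 else -1 / 9765

/-- the truncated sieve -/
noncomputable def pp (x : ℝ) : ℝ := ∑ k ∈ range 6, aa k * mm k x

theorem pp_eq (x : ℝ) : pp x = -((x - 2) * (x - 4) * (x - 8) * (x - 16) * (x - 32)) / 9765 := by
  unfold pp mm aa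
  simp only [sum_range_succ, prod_range_succ, range_zero, sum_empty, prod_empty]
  norm_num
  ring

theorem pp_le (r : ℕ) : pp (2 ^ r) ≤ if r = 0 then 1 else 0 := by
  rw [pp_eq]
  rcases Nat.lt_or_ge r 6 with h | h
  · interval_cases r <;> norm_num
  · have h1 : (64 : ℝ) ≤ 2 ^ r := by
      calc (64 : ℝ) = 2 ^ 6 := by norm_num
        _ ≤ 2 ^ r := pow_le_pow_right₀ (by norm_num) h
    rw [if_neg (by omega)]
    have h2 : 0 ≤ ((2 : ℝ) ^ r - 2) * (2 ^ r - 4) * (2 ^ r - 8) * (2 ^ r - 16) * (2 ^ r - 32) := by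
      refine mul_nonneg (mul_nonneg (mul_nonneg (mul_nonneg ?_ ?_) ?_) ?_) ?_ <;> linarith
    linarith [div_nonneg h2 (by norm_num : (0 : ℝ) ≤ 9765), neg_div (9765 : ℝ)
      (((2 : ℝ) ^ r - 2) * (2 ^ r - 4) * (2 ^ r - 8) * (2 ^ r - 16) * (2 ^ r - 32))]

/-- the constant `1 - 1 + 1/3 - 1/21 + 1/315 - 1/9765` -/
noncomputable def ρ : ℝ := 188 / 651

theorem sum_aa : ∑ k ∈ range 6, aa k = ρ := by
  unfold aa ρ
  simp only [sum_range_succ, range_zero, sum_empty]
  norm_num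

/-! ### The lower density -/

/-- the moments of `#V / 2` -/
def Moment (e : S) (c : G) : Prop := ∀ (k : ℕ) (ε : ℝ), 0 < ε → ∃ X0 : ℕ, ∀ X ≥ X0,
  |∑ m ∈ Fam c X, ((∏ i ∈ range k, ((Nat.card (V e m) : ℝ) / 2 - 2 ^ i)) - 1)| ≤ ε * X

theorem moment_pp {e : S} {c : G} (h : Moment e c) {ε : ℝ} (hε : 0 < ε) : ∃ X0 : ℕ, ∀ X ≥ X0,
    |∑ m ∈ Fam c X, (pp ((Nat.card (V e m) : ℝ) / 2) - ρ)| ≤ ε * X := by
  choose X0 hX0 using fun k : ℕ => h k (ε / 6) (by positivity)
  refine ⟨∑ k ∈ range 6, X0 k, fun X hX => ?_⟩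
  have h1 : ∑ m ∈ Fam c X, (pp ((Nat.card (V e m) : ℝ) / 2) - ρ) =
      ∑ k ∈ range 6, aa k * ∑ m ∈ Fam c X,
        ((∏ i ∈ range k, ((Nat.card (V e m) : ℝ) / 2 - 2 ^ i)) - 1) := by
    simp only [mul_sum]
    rw [sum_comm]
    refine sum_congr rfl fun m _ => ?_
    rw [← sum_aa]
    unfold pp mm
    rw [← sum_sub_distrib]
    exact sum_congr rfl fun k _ => by ring
  rw [h1]
  refine (abs_sum_le_sum_abs _ _).trans ?_
  have h2 : ∀ k ∈ range 6, |aa k * ∑ m ∈ Fam c X,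
      ((∏ i ∈ range k, ((Nat.card (V e m) : ℝ) / 2 - 2 ^ i)) - 1)| ≤ ε / 6 * X := by
    intro k hk
    rw [abs_mul]
    have h3 : |aa k| ≤ 1 := by
      unfold aa
      split_ifs <;> norm_num
    have h4 := hX0 k X ((single_le_sum (f := X0) (fun _ _ => Nat.zero_le _) hk).trans hX)
    calc _ ≤ 1 * (ε / 6 * X) := mul_le_mul h3 h4 (abs_nonneg _) zero_le_one
      _ = _ := one_mul _
  refine (sum_le_sum h2).trans (le_of_eq ?_)
  rw [sum_const, card_range, nsmul_eq_mul]
  push_cast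
  ring

open Classical in
/-- the lower bound for the number of `m` with `#V = 2` -/
theorem lower {e : S} {c : G} (hG : Good e c) (h : Moment e c) {ε : ℝ} (hε : 0 < ε) :
    ∃ X0 : ℕ, ∀ X ≥ X0, ρ * ((Fam c X).card : ℝ) - ε * X ≤
      (((Fam c X).filter fun m => Nat.card (V e m) = 2 ∧ val e * m ≠ 1).card : ℝ) := by
  obtain ⟨X1, hX1⟩ := moment_pp h (half_pos hε)
  set C : ℝ := |pp ((Nat.card (V e 1) : ℝ) / 2)| with hC
  obtain ⟨X2, hX2⟩ := exists_nat_gt (C / (ε / 2))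
  refine ⟨max X1 X2, fun X hX => ?_⟩
  have h1 := (abs_le.1 (hX1 X ((le_max_left _ _).trans hX))).1
  rw [sum_sub_distrib, sum_const, nsmul_eq_mul] at h1
  have h2 : C ≤ ε / 2 * X := by
    have h3 : C / (ε / 2) ≤ X := hX2.le.trans (by exact_mod_cast (le_max_right X1 X2).trans hX)
    rw [div_le_iff₀ (half_pos hε)] at h3
    linarith
  have h4 : ∑ m ∈ Fam c X, pp ((Nat.card (V e m) : ℝ) / 2) ≤
      (((Fam c X).filter fun m => Nat.card (V e m) = 2 ∧ val e * m ≠ 1).card : ℝ) + C := by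
    have h5 : ∀ m ∈ Fam c X, pp ((Nat.card (V e m) : ℝ) / 2) ≤
        (if Nat.card (V e m) = 2 ∧ val e * m ≠ 1 then (1 : ℝ) else 0) +
          if m = 1 then C else 0 := by
      intro m hm
      rw [mem_Fam] at hm
      obtain ⟨-, hsq, hm1, hm2⟩ := hm
      by_cases h0 : e = 0 ∧ m = 1
      · rw [h0.2, if_pos rfl]
        have h6 : (0 : ℝ) ≤ if Nat.card (V e 1) = 2 ∧ val e * 1 ≠ 1 then (1 : ℝ) else 0 := by
          split_ifs <;> norm_num
        have h7 := le_abs_self (pp ((Nat.card (V e 1) : ℝ) / 2))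
        rw [← hC] at h7
        linarith
      · obtain ⟨r, hr⟩ := card_V_ge hsq hm1 (by rw [hm2]; exact hG) h0
        have h6 : ((Nat.card (V e m) : ℝ) / 2) = 2 ^ r := by
          rw [hr]
          push_cast
          ring
        rw [h6]
        have h7 : (0 : ℝ) ≤ if m = 1 then C else 0 := by
          split_ifs
          · exact abs_nonneg _
          · exact le_rfl
        refine (pp_le r).trans ?_
        by_cases hr0 : r = 0
        · have h8 : Nat.card (V e m) = 2 := by rw [hr, hr0]; norm_num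
          have h9 : val e * m ≠ 1 := by
            intro h10
            have h11 := Nat.eq_one_of_mul_eq_one_right h10
            have h12 := Nat.eq_one_of_mul_eq_one_left h10
            exact h0 ⟨val_eq_one h11, h12⟩
          rw [if_pos hr0, if_pos ⟨h8, h9⟩]
          linarith
        · rw [if_neg hr0]
          have : (0 : ℝ) ≤ if Nat.card (V e m) = 2 ∧ val e * m ≠ 1 then (1 : ℝ) else 0 := by
            split_ifs <;> norm_num
          linarith
    refine (sum_le_sum h5).trans ?_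
    rw [sum_add_distrib, sum_boole]
    have h6 : ∑ m ∈ Fam c X, (if m = 1 then C else 0) ≤ C := by
      rw [sum_ite_eq']
      split_ifs
      · exact le_rfl
      · exact abs_nonneg _
    linarith
  linarith

end Vale.Agent.P017.H998
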