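import Vale.Agent.P017.H185.Fam
import Vale.Agent.P017.H998.Fields

/-!
# Discriminants of imaginary quadratic fields
-/

namespace Vale.Agent.P017.H998

open NumberField Module Vale.Agent.P017.H185

variable {K : Type*} [Field K] [NumberField K]

/-- the discriminant from an integral basis `1, w` with `w ^ 2 = t w - n` -/
theorem discr_of_basis (b : Basis (Fin 2) ℤ (𝓞 K)) (h0 : b 0 = 1) {t n : ℤ}
    (h : b 1 * b 1 = t • b 1 - n • b 0) : discr K = t ^ 2 - 4 * n := by
  have tr : ∀ x, Algebra.trace ℤ (𝓞 K) x = b.repr (x * b 0) 0 + b.repr (x * b 1) 1 := by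
    intro x
    rw [Algebra.trace_eq_matrix_trace b, Matrix.trace_fin_two, Algebra.leftMulMatrix_eq_repr_mul,
      Algebra.leftMulMatrix_eq_repr_mul]
  have t0 : Algebra.trace ℤ (𝓞 K) (b 0) = 2 := by
    rw [tr, h0, one_mul, one_mul, ← h0, b.repr_self, b.repr_self]
    simp
  have t1 : Algebra.trace ℤ (𝓞 K) (b 1) = t := by
    rw [tr, h, h0, mul_one, ← h0, b.repr_self, map_sub, map_smul, map_smul, b.repr_self,
      b.repr_self]
    simp
  have t2 : Algebra.trace ℤ (𝓞 K) (b 1 * b 1) = t ^ 2 - 2 * n := by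
    rw [h, map_sub, map_smul, map_smul, t0, t1, smul_eq_mul, smul_eq_mul]
    ring
  rw [← discr_eq_discr K b, Algebra.discr_def, Matrix.det_fin_two]
  simp only [Algebra.traceMatrix_apply, Algebra.traceForm_apply]
  rw [h0, one_mul, one_mul, mul_one, ← h0, t0, t1, t2]
  ring

theorem discr_of_pair {w : 𝓞 K} {t n : ℤ} (h : w * w = t • w - n • (1 : 𝓞 K))
    (h1 : ∀ a b : ℤ, a • (1 : 𝓞 K) + b • w = 0 → a = 0 ∧ b = 0)
    (h2 : ∀ z : 𝓞 K, ∃ a b : ℤ, z = a • (1 : 𝓞 K) + b • w) : discr K = t ^ 2 - 4 * n := by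
  have hli : LinearIndependent ℤ ![(1 : 𝓞 K), w] := LinearIndependent.pair_iff.2 h1
  have hsp : ⊤ ≤ Submodule.span ℤ (Set.range ![(1 : 𝓞 K), w]) := by
    intro z _
    obtain ⟨a, b, hz⟩ := h2 z
    rw [Submodule.mem_span_range_iff_exists_fun]
    exact ⟨![a, b], by rw [hz]; simp [Fin.sum_univ_two]⟩
  set b := Basis.mk hli hsp with hb
  have b0 : b 0 = 1 := by rw [hb, Basis.mk_apply]; rfl
  have b1 : b 1 = w := by rw [hb, Basis.mk_apply]; rfl
  exact discr_of_basis b b0 (by rw [b0, b1]; exact h)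

omit [NumberField K] in
theorem int_eq_of_coe {x y : 𝓞 K} (h : algebraMap (𝓞 K) K x = algebraMap (𝓞 K) K y) : x = y :=
  RingOfIntegers.ext h

/-- the discriminant of `ℚ(√-d)` -/
theorem discr_QF {d : ℕ} (q : QF K d) : discr K = -(discAbs d : ℤ) := by
  by_cases hd : d % 4 = 3
  · -- `w = (1 + θ) / 2`
    obtain ⟨z, hz, hz2⟩ := q.of_coords (a := 1) (b := 1) (by omega)
    obtain ⟨w, hw⟩ : ∃ w : 𝓞 K, algebraMap (𝓞 K) K w = z := ⟨⟨z, hz⟩, rfl⟩
    obtain ⟨n, hn⟩ : ∃ n : ℕ, 4 * n = 1 + d := ⟨(1 + d) / 4, by omega⟩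
    have hnK : (4 : K) * n = 1 + d := by exact_mod_cast hn
    have e : w * w = (1 : ℤ) • w - (n : ℤ) • (1 : 𝓞 K) := by
      apply int_eq_of_coe
      simp only [zsmul_eq_mul, map_mul, map_sub, map_intCast, map_one, hw]
      push_cast
      push_cast at hz2
      have hθ := q.hθ
      have h4 : (4 : K) ≠ 0 := by norm_num
      apply mul_left_cancel₀ h4
      have : q.θ = 2 * z - 1 := by linear_combination -hz2
      rw [this] at hθ
      linear_combination hθ + hnK
    have h := discr_of_pair e ?_ ?_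
    · rw [h, discAbs, if_pos hd]
      push_cast
      have : (4 : ℤ) * n = 1 + d := by exact_mod_cast hn
      linear_combination -this
    · intro a b hab
      have h1 := congrArg (algebraMap (𝓞 K) K) hab
      simp only [zsmul_eq_mul, map_mul, map_add, map_intCast, map_one, map_zero, hw] at h1
      push_cast at hz2
      have h2 : ((2 * a + b : ℚ) : K) + ((b : ℚ) : K) * q.θ = 0 := by
        push_cast
        linear_combination 2 * h1 - (b : K) * hz2
      obtain ⟨h3, h4⟩ := q.uniq h2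
      have h5 : b = 0 := by exact_mod_cast h4
      subst h5
      refine ⟨?_, rfl⟩
      have : (2 * a : ℚ) = 0 := by simpa using h3
      have : (a : ℚ) = 0 := by linarith
      exact_mod_cast this
    · intro x
      obtain ⟨a, b, h1, h2⟩ := q.int_coords (RingOfIntegers.isIntegral_coe x)
      have h3 : ∃ k : ℤ, a = b + 2 * k := by
        have h4 : (a - b) % 2 = 0 := by
          obtain ⟨c, hc⟩ := h2
          have hd' : (d : ℤ) % 4 = 3 := by exact_mod_cast congrArg Nat.cast hd
          have ha : a % 2 = 0 ∨ a % 2 = 1 := by omega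
          have hb : b % 2 = 0 ∨ b % 2 = 1 := by omega
          have key : (a ^ 2 + d * b ^ 2) % 4 = 0 := by omega
          rcases ha with ha | ha <;> rcases hb with hb | hb
          · omega
          · exfalso
            obtain ⟨k, rfl⟩ : ∃ k, a = 2 * k := ⟨a / 2, by omega⟩
            obtain ⟨l, rfl⟩ : ∃ l, b = 2 * l + 1 := ⟨b / 2, by omega⟩
            obtain ⟨m, hm⟩ : ∃ m : ℤ, (d : ℤ) = 4 * m + 3 := ⟨d / 4, by omega⟩
            rw [hm] at key
            have : (2 * k) ^ 2 + (4 * m + 3) * (2 * l + 1) ^ 2 =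
              4 * (k ^ 2 + m * (2 * l + 1) ^ 2 + 3 * l ^ 2 + 3 * l) + 3 := by ring
            rw [this] at key
            omega
          · exfalso
            obtain ⟨k, rfl⟩ : ∃ k, a = 2 * k + 1 := ⟨a / 2, by omega⟩
            obtain ⟨l, rfl⟩ : ∃ l, b = 2 * l := ⟨b / 2, by omega⟩
            have : (2 * k + 1) ^ 2 + (d : ℤ) * (2 * l) ^ 2 =
              4 * (k ^ 2 + k + d * l ^ 2) + 1 := by ring
            rw [this] at key
            omega
          · omega
        exact ⟨(a - b) / 2, by omega⟩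
      obtain ⟨k, rfl⟩ := h3
      refine ⟨k, b, ?_⟩
      apply int_eq_of_coe
      simp only [zsmul_eq_mul, map_mul, map_add, map_intCast, map_one, hw]
      push_cast at hz2 h1
      have h2 : (2 : K) ≠ 0 := by norm_num
      apply mul_left_cancel₀ h2
      linear_combination h1 - (b : K) * hz2
  · -- `w = θ`
    have h4d : ¬ 4 ∣ d := by
      intro h
      have := Nat.isUnit_iff.mp (q.hd 2 (by simpa using h))
      omega
    have hw : algebraMap (𝓞 K) K q.t = q.θ := rfl
    have e : q.t * q.t = (0 : ℤ) • q.t - (d : ℤ) • (1 : 𝓞 K) := by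
      rw [← sq, q.t_sq]
      simp
    have h := discr_of_pair e ?_ ?_
    · rw [h, discAbs, if_neg hd]
      push_cast
      ring
    · intro a b hab
      have h1 := congrArg (algebraMap (𝓞 K) K) hab
      simp only [zsmul_eq_mul, map_mul, map_add, map_intCast, map_one, map_zero, hw] at h1
      have h2 : ((a : ℚ) : K) + ((b : ℚ) : K) * q.θ = 0 := by
        push_cast
        linear_combination h1
      obtain ⟨h3, h4⟩ := q.uniq h2
      exact ⟨by exact_mod_cast h3, by exact_mod_cast h4⟩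
    · intro x
      obtain ⟨a, b, h1, h2⟩ := q.int_coords (RingOfIntegers.isIntegral_coe x)
      have key : (a ^ 2 + d * b ^ 2) % 4 = 0 := by omega
      have ha : a % 2 = 0 ∨ a % 2 = 1 := by omega
      have hb : b % 2 = 0 ∨ b % 2 = 1 := by omega
      have h3 : a % 2 = 0 ∧ b % 2 = 0 := by
        have hdm : (d : ℤ) % 4 = 1 ∨ (d : ℤ) % 4 = 2 := by omega
        rcases ha with ha | ha <;> rcases hb with hb | hb
        · exact ⟨ha, hb⟩
        · exfalso
          obtain ⟨k, rfl⟩ : ∃ k, a = 2 * k := ⟨a / 2, by omega⟩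
          obtain ⟨l, rfl⟩ : ∃ l, b = 2 * l + 1 := ⟨b / 2, by omega⟩
          have : (2 * k) ^ 2 + (d : ℤ) * (2 * l + 1) ^ 2 =
            4 * (k ^ 2 + d * l ^ 2 + d * l) + d := by ring
          rw [this] at key
          omega
        · exfalso
          obtain ⟨k, rfl⟩ : ∃ k, a = 2 * k + 1 := ⟨a / 2, by omega⟩
          obtain ⟨l, rfl⟩ : ∃ l, b = 2 * l := ⟨b / 2, by omega⟩
          have : (2 * k + 1) ^ 2 + (d : ℤ) * (2 * l) ^ 2 =
            4 * (k ^ 2 + k + d * l ^ 2) + 1 := by ring
          rw [this] at key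
          omega
        · exfalso
          obtain ⟨k, rfl⟩ : ∃ k, a = 2 * k + 1 := ⟨a / 2, by omega⟩
          obtain ⟨l, rfl⟩ : ∃ l, b = 2 * l + 1 := ⟨b / 2, by omega⟩
          have : (2 * k + 1) ^ 2 + (d : ℤ) * (2 * l + 1) ^ 2 =
            4 * (k ^ 2 + k + d * l ^ 2 + d * l) + d + 1 := by ring
          rw [this] at key
          omega
      obtain ⟨k, rfl⟩ : ∃ k, a = 2 * k := ⟨a / 2, by omega⟩
      obtain ⟨l, rfl⟩ : ∃ l, b = 2 * l := ⟨b / 2, by omega⟩
      refine ⟨k, l, ?_⟩
      apply int_eq_of_coe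
      simp only [zsmul_eq_mul, map_mul, map_add, map_intCast, map_one, hw]
      push_cast at h1
      have h2 : (2 : K) ≠ 0 := by norm_num
      apply mul_left_cancel₀ h2
      linear_combination h1

/-- existence of `ℚ(√-d)` -/
theorem exists_field {d : ℕ} (hd : Squarefree d) : ∃ (K : Type) (_ : Field K) (_ : NumberField K)
    (_ : Algebra.IsQuadraticExtension ℚ K) (θ : K), θ ^ 2 = -(d : K) := by
  let f : Polynomial ℚ := Polynomial.X ^ 2 + Polynomial.C (d : ℚ)
  have hdeg : f.natDegree = 2 := Polynomial.natDegree_X_pow_add_C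
  have hmon : f.Monic := Polynomial.monic_X_pow_add_C _ (by norm_num)
  have hd0 : (0 : ℚ) < d := by exact_mod_cast Nat.pos_of_ne_zero hd.ne_zero
  have hirr : Irreducible f := by
    rw [hmon.irreducible_iff_roots_eq_zero_of_degree_le_three (by omega) (by omega)]
    rw [Multiset.eq_zero_iff_forall_notMem]
    intro x hx
    have h1 := (Polynomial.mem_roots'.1 hx).2
    simp only [f, Polynomial.IsRoot.def, Polynomial.eval_add, Polynomial.eval_pow,
      Polynomial.eval_X, Polynomial.eval_C] at h1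
    nlinarith [sq_nonneg x]
  have : Fact (Irreducible f) := ⟨hirr⟩
  have hfr : Module.finrank ℚ (AdjoinRoot f) = 2 := by
    rw [(AdjoinRoot.powerBasis hirr.ne_zero).finrank, AdjoinRoot.powerBasis_dim, hdeg]
  have : CharZero (AdjoinRoot f) := charZero_of_injective_algebraMap
    (algebraMap ℚ (AdjoinRoot f)).injective
  have : FiniteDimensional ℚ (AdjoinRoot f) := Module.finite_of_finrank_eq_succ hfr
  refine ⟨AdjoinRoot f, inferInstance, ⟨⟩, ⟨?_⟩, AdjoinRoot.root f, ?_⟩
  · exact hfr
  · have h1 := AdjoinRoot.eval₂_root f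
    simp only [f, Polynomial.eval₂_add, Polynomial.eval₂_pow, Polynomial.eval₂_X,
      map_natCast, Polynomial.eval₂_natCast] at h1
    exact eq_neg_of_add_eq_zero_left h1

end Vale.Agent.P017.H998
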