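import Vale.Agent.P017.H509.Defs

/-!
# Squarefree numbers in the classes: the sieve
-/

namespace Vale.Agent.P017.H998

open Finset Filter Topology Vale.Agent.P017.H509
open scoped ArithmeticFunction.Moebius

theorem dvd_of_sq_dvd {a b d : ℕ} (ha : Squarefree a) (hb : b ≠ 0) (h : d ^ 2 ∣ b ^ 2 * a) :
    d ∣ b := by
  have ha0 : a ≠ 0 := ha.ne_zero
  have hba : b ^ 2 * a ≠ 0 := mul_ne_zero (pow_ne_zero _ hb) ha0
  have hd : d ≠ 0 := by
    rintro rfl
    rw [zero_pow two_ne_zero, zero_dvd_iff] at h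
    exact hba h
  rw [← Nat.factorization_le_iff_dvd hd hb]
  intro p
  have h1 := (Nat.factorization_le_iff_dvd (pow_ne_zero _ hd) hba).2 h p
  rw [Nat.factorization_mul (pow_ne_zero _ hb) ha0, Nat.factorization_pow,
    Nat.factorization_pow] at h1
  simp only [Finsupp.coe_add, Finsupp.coe_smul, Pi.add_apply, Pi.smul_apply, smul_eq_mul] at h1
  have h2 := ha.natFactorization_le_one p
  omega

/-- the sieve -/
theorem sum_moebius {m N : ℕ} (hm : m ≠ 0) (hN : m ≤ N) :
    ∑ d ∈ (Icc 1 N).filter (fun d => d ^ 2 ∣ m), μ d = if Squarefree m then 1 else 0 := by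
  obtain ⟨a, b, hab, ha⟩ := Nat.sq_mul_squarefree m
  have hb : b ≠ 0 := by
    rintro rfl
    apply hm
    rw [← hab]; simp
  have hb1 : 1 ≤ b := Nat.one_le_iff_ne_zero.2 hb
  have ha1 : 1 ≤ a := Nat.one_le_iff_ne_zero.2 ha.ne_zero
  have e1 : (Icc 1 N).filter (fun d => d ^ 2 ∣ m) = b.divisors := by
    ext d
    simp only [mem_filter, mem_Icc, Nat.mem_divisors]
    constructor
    · rintro ⟨⟨_, _⟩, h3⟩
      rw [← hab] at h3
      exact ⟨dvd_of_sq_dvd ha hb h3, hb⟩
    · rintro ⟨h1, _⟩
      have h2 : d ^ 2 ∣ m := by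
        rw [← hab]
        exact Dvd.dvd.mul_right (pow_dvd_pow_of_dvd h1 2) a
      refine ⟨⟨Nat.pos_of_dvd_of_pos h1 hb1, ?_⟩, h2⟩
      have h3 : d ≤ b := Nat.le_of_dvd hb1 h1
      have h4 : b ≤ b ^ 2 * a := by nlinarith
      omega
  rw [e1]
  have h5 : ∑ d ∈ b.divisors, μ d = if b = 1 then 1 else 0 := by
    have h6 := ArithmeticFunction.coe_zeta_mul_apply (f := μ) (x := b)
    rw [← h6, ArithmeticFunction.coe_zeta_mul_moebius, ArithmeticFunction.one_apply]
  rw [h5]
  have h6 : Squarefree m ↔ b = 1 := by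
    constructor
    · intro h
      have h7 : b * b ∣ m := ⟨a, by rw [← hab]; ring⟩
      exact Nat.isUnit_iff.1 (h b h7)
    · rintro rfl
      rw [← hab, one_pow, one_mul]
      exact ha
  by_cases h : b = 1
  · rw [if_pos h, if_pos (h6.2 h)]
  · rw [if_neg h, if_neg fun h' => h (h6.1 h')]

/-- prime to `30` and in the class `c` -/
def P (c : G) (m : ℕ) : Prop := m.Coprime 30 ∧ cl m = c

instance (c : G) : DecidablePred (P c) := fun m => by unfold P; infer_instance

theorem P_period (c : G) (k : ℕ) : P c (120 + k) ↔ P c k := by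
  have h1 : (120 + k).Coprime 30 ↔ k.Coprime 30 := by
    have : 120 + k = k + 30 * 4 := by ring
    rw [this, Nat.coprime_add_mul_left_left]
  have h4 : (120 + k) % 4 = k % 4 := by omega
  have h8 : (120 + k) % 8 = k % 8 := by omega
  have h3 : (120 + k) % 3 = k % 3 := by omega
  have h5 : (120 + k) % 5 = k % 5 := by omega
  unfold P
  rw [h1]
  unfold cl
  rw [h4, h8, h3, h5]

theorem count_period (c : G) (a b : ℕ) :
    Nat.count (P c) (120 * a + b) = a * Nat.count (P c) 120 + Nat.count (P c) b := by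
  induction a with
  | zero => simp
  | succ a ih =>
    have e : 120 * (a + 1) + b = 120 + (120 * a + b) := by ring
    rw [e, Nat.count_add]
    have h : (fun k => P c (120 + k)) = P c := by
      funext k
      exact propext (P_period c k)
    simp only [h]
    rw [ih]
    ring

set_option maxRecDepth 100000 in
theorem count_one (c : G) : Nat.count (P c) 120 = 2 := by
  revert c
  decide +kernel

theorem count_bound (c : G) (n : ℕ) : |(Nat.count (P c) n : ℝ) - n / 60| ≤ 4 := by
  obtain ⟨a, b, hb, rfl⟩ : ∃ a b, b < 120 ∧ n = 120 * a + b :=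
    ⟨n / 120, n % 120, Nat.mod_lt _ (by norm_num), (Nat.div_add_mod n 120).symm⟩
  rw [count_period, count_one]
  have h1 : Nat.count (P c) b ≤ 2 := by
    rw [← count_one c]
    exact Nat.count_monotone _ hb.le
  have h2 : (Nat.count (P c) b : ℝ) ≤ 2 := by exact_mod_cast h1
  have h3 : (0 : ℝ) ≤ Nat.count (P c) b := Nat.cast_nonneg _
  have h4 : (b : ℝ) < 120 := by exact_mod_cast hb
  have h5 : (0 : ℝ) ≤ b := Nat.cast_nonneg _
  push_cast
  rw [abs_le]
  constructor <;> linarith

end Vale.Agent.P017.H998
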