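import Vale.Agent.P017.H998.Types
import Vale.Agent.P017.H998.Quad

/-!
# The statement over the imaginary quadratic fields, ordered by the discriminant
-/

namespace Vale.Agent.P017.H998

open NumberField Finset Filter Topology Vale.Agent.P017.H509
open Vale.Agent.P017.H185 (QF X015 exists_QF exists_QF_of_sqrt)

universe u

/-- the discriminants of absolute value at most `X` of the imaginary quadratic fields (an
imaginary quadratic field is determined, up to isomorphism, by its discriminant) -/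
def discs (X : ℕ) : Set ℤ := {D : ℤ | |D| ≤ X ∧ ∃ (K : Type) (_ : Field K) (_ : NumberField K)
  (_ : Algebra.IsQuadraticExtension ℚ K) (_ : IsTotallyComplex K), discr K = D}

/-- the discriminants of the imaginary quadratic fields `K` with `X₀(15)(K)` finite -/
def finDisc : Set ℤ := {D : ℤ | ∀ (K : Type u) [Field K] [NumberField K]
  [Algebra.IsQuadraticExtension ℚ K] [IsTotallyComplex K], discr K = D →
    Finite (X015.baseChange K).toAffine.Point}

/-- the same for `d` -/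
def FinQ (d : ℕ) : Prop := ∀ (K : Type u) [Field K] [NumberField K]
  [Algebra.IsQuadraticExtension ℚ K] (θ : K), θ ^ 2 = -(d : K) →
    Finite (X015.baseChange K).toAffine.Point

theorem discAbs_inj {a b : ℕ} (h : discAbs a = discAbs b) : a = b := by
  unfold discAbs at h
  split_ifs at h <;> omega

theorem totallyComplex_of_sqrt {K : Type*} [Field K] [NumberField K] {d : ℕ}
    (hd : Squarefree d) {θ : K} (hθ : θ ^ 2 = -(d : K)) : IsTotallyComplex K := by
  have hd0 : (0 : ℝ) < d := by exact_mod_cast Nat.pos_of_ne_zero hd.ne_zero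
  refine ⟨fun w => ?_⟩
  rw [← InfinitePlace.not_isReal_iff_isComplex]
  intro hw
  have h1 : (InfinitePlace.embedding_of_isReal hw θ) ^ 2 = -(d : ℝ) := by
    rw [← map_pow, hθ, map_neg, map_natCast]
  nlinarith [sq_nonneg (InfinitePlace.embedding_of_isReal hw θ)]

theorem mem_discs {X d : ℕ} (hd : Squarefree d) : -(discAbs d : ℤ) ∈ discs X ↔ discAbs d ≤ X := by
  constructor
  · rintro ⟨h, -⟩
    rw [abs_neg, Nat.abs_cast] at h
    exact_mod_cast h
  · intro h
    obtain ⟨K, hK1, hK2, hK3, θ, hθ⟩ := exists_field hd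
    obtain ⟨q⟩ := exists_QF_of_sqrt hd hθ
    refine ⟨?_, K, hK1, hK2, hK3, totallyComplex_of_sqrt hd hθ, discr_QF q⟩
    rw [abs_neg, Nat.abs_cast]
    exact_mod_cast h

theorem discs_eq (X : ℕ) : discs X = (fun d : ℕ => -(discAbs d : ℤ)) '' (fields X : Set ℕ) := by
  ext D
  constructor
  · rintro ⟨h, K, _, _, _, _, rfl⟩
    obtain ⟨d, ⟨q⟩⟩ := exists_QF K
    refine ⟨d, ?_, (discr_QF q).symm⟩
    rw [discr_QF q, abs_neg, Nat.abs_cast] at h
    rw [mem_coe, mem_fields]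
    exact ⟨q.hd, by exact_mod_cast h⟩
  · rintro ⟨d, hd, rfl⟩
    rw [mem_coe, mem_fields] at hd
    exact (mem_discs hd.1).2 hd.2

theorem inj : Function.Injective fun d : ℕ => -(discAbs d : ℤ) := by
  intro a b h
  have h1 : (discAbs a : ℤ) = discAbs b := neg_injective h
  exact discAbs_inj (by exact_mod_cast h1)

theorem finDisc_of {d : ℕ} (h : FinQ.{u} d) : -(discAbs d : ℤ) ∈ finDisc.{u} := by
  intro K _ _ _ _ hK
  obtain ⟨d', ⟨q⟩⟩ := exists_QF K
  rw [discr_QF q] at hK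
  have : d' = d := inj hK
  subst this
  exact h K q.θ q.hθ

open Classical in
/-- counting discriminants with a property -/
theorem ncard_discs (T : Set ℤ) (X : ℕ) : (discs X ∩ T).ncard =
    ((fields X).filter fun d => -(discAbs d : ℤ) ∈ T).card := by
  have h : discs X ∩ T = (fun d : ℕ => -(discAbs d : ℤ)) ''
      (((fields X).filter fun d => -(discAbs d : ℤ) ∈ T : Finset ℕ) : Set ℕ) := by
    rw [discs_eq]
    ext D
    constructor
    · rintro ⟨⟨d, hd, rfl⟩, hT⟩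
      exact ⟨d, by rw [mem_coe, mem_filter]; exact ⟨hd, hT⟩, rfl⟩
    · rintro ⟨d, hd, rfl⟩
      rw [mem_coe, mem_filter] at hd
      exact ⟨⟨d, hd.1, rfl⟩, hd.2⟩
  rw [h, Set.ncard_image_of_injective _ inj, Set.ncard_coe_finset]

theorem finite_discs (X : ℕ) : (discs X).Finite := by
  rw [discs_eq]
  exact (Finset.finite_toSet _).image _

/-- the pairs `((D/3), (D/5))` with root number `+1`: `(3, 5)` is split-inert, inert-split,
ramified-inert, split-ramified, ramified-ramified -/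
def pairs : Fin 5 → ℤ × ℤ
  | 0 => (1, -1)
  | 1 => (-1, 1)
  | 2 => (0, -1)
  | 3 => (1, 0)
  | 4 => (0, 0)

theorem jac3 (d : ℕ) : (jacobiSym (-(discAbs d : ℤ)) 3 = 1 ↔ d % 3 = 2) ∧
    (jacobiSym (-(discAbs d : ℤ)) 3 = -1 ↔ d % 3 = 1) ∧
    (jacobiSym (-(discAbs d : ℤ)) 3 = 0 ↔ d % 3 = 0) := by
  have h : (-(discAbs d : ℤ)) % ((3 : ℕ) : ℤ) = ((2 * d % 3 : ℕ) : ℤ) := by
    unfold discAbs
    split_ifs <;> omega
  rw [jacobiSym.mod_left, h]
  have h3 : d % 3 = 0 ∨ d % 3 = 1 ∨ d % 3 = 2 := by omega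
  have a0 : jacobiSym ((0 : ℕ) : ℤ) 3 = 0 := by norm_num
  have a1 : jacobiSym ((1 : ℕ) : ℤ) 3 = 1 := by norm_num
  have a2 : jacobiSym ((2 : ℕ) : ℤ) 3 = -1 := by norm_num
  rcases h3 with h3 | h3 | h3
  · rw [show 2 * d % 3 = 0 by omega, a0, h3]; norm_num
  · rw [show 2 * d % 3 = 2 by omega, a2, h3]; norm_num
  · rw [show 2 * d % 3 = 1 by omega, a1, h3]; norm_num

theorem jac5 (d : ℕ) : (jacobiSym (-(discAbs d : ℤ)) 5 = 1 ↔ d % 5 = 1 ∨ d % 5 = 4) ∧
    (jacobiSym (-(discAbs d : ℤ)) 5 = -1 ↔ d % 5 = 2 ∨ d % 5 = 3) ∧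
    (jacobiSym (-(discAbs d : ℤ)) 5 = 0 ↔ d % 5 = 0) := by
  have a0 : jacobiSym ((0 : ℕ) : ℤ) 5 = 0 := by norm_num
  have a1 : jacobiSym ((1 : ℕ) : ℤ) 5 = 1 := by norm_num
  have a2 : jacobiSym ((2 : ℕ) : ℤ) 5 = -1 := by norm_num
  have a3 : jacobiSym ((3 : ℕ) : ℤ) 5 = -1 := by norm_num
  have a4 : jacobiSym ((4 : ℕ) : ℤ) 5 = 1 := by norm_num
  have h5 : d % 5 = 0 ∨ d % 5 = 1 ∨ d % 5 = 2 ∨ d % 5 = 3 ∨ d % 5 = 4 := by omega
  have h : (-(discAbs d : ℤ)) % ((5 : ℕ) : ℤ) = ((4 * d % 5 : ℕ) : ℤ) ∨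
      (-(discAbs d : ℤ)) % ((5 : ℕ) : ℤ) = ((d % 5 : ℕ) : ℤ) := by
    unfold discAbs
    split_ifs
    · left; omega
    · right; omega
  rw [jacobiSym.mod_left]
  rcases h with h | h
  · rw [h]
    rcases h5 with h5 | h5 | h5 | h5 | h5
    · rw [show 4 * d % 5 = 0 by omega, a0, h5]; norm_num
    · rw [show 4 * d % 5 = 4 by omega, a4, h5]; norm_num
    · rw [show 4 * d % 5 = 3 by omega, a3, h5]; norm_num
    · rw [show 4 * d % 5 = 2 by omega, a2, h5]; norm_num
    · rw [show 4 * d % 5 = 1 by omega, a1, h5]; norm_num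
  · rw [h]
    rcases h5 with h5 | h5 | h5 | h5 | h5
    · rw [h5, a0]; norm_num
    · rw [h5, a1]; norm_num
    · rw [h5, a2]; norm_num
    · rw [h5, a3]; norm_num
    · rw [h5, a4]; norm_num

/-- the discriminants of a type -/
def typeD (i : Fin 5) : Set ℤ := {D : ℤ | (jacobiSym D 3, jacobiSym D 5) = pairs i}

theorem mem_typeD (i : Fin 5) (d : ℕ) : -(discAbs d : ℤ) ∈ typeD i ↔ Typ i d := by
  obtain ⟨a1, a2, a0⟩ := jac3 d
  obtain ⟨b1, b2, b0⟩ := jac5 d
  change (jacobiSym (-(discAbs d : ℤ)) 3, jacobiSym (-(discAbs d : ℤ)) 5) = pairs i ↔ _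
  fin_cases i
  · change _ = ((1 : ℤ), (-1 : ℤ)) ↔ _
    rw [Prod.mk.injEq]
    exact and_congr a1 b2
  · change _ = ((-1 : ℤ), (1 : ℤ)) ↔ _
    rw [Prod.mk.injEq]
    exact and_congr a2 b1
  · change _ = ((0 : ℤ), (-1 : ℤ)) ↔ _
    rw [Prod.mk.injEq]
    exact and_congr a0 b2
  · change _ = ((1 : ℤ), (0 : ℤ)) ↔ _
    rw [Prod.mk.injEq]
    exact and_congr a1 b0
  · change _ = ((0 : ℤ), (0 : ℤ)) ↔ _
    rw [Prod.mk.injEq]
    exact and_congr a0 b0

theorem card_le_of_imp {s : Finset ℕ} {p q : ℕ → Prop} {_ : DecidablePred p} {_ : DecidablePred q}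
    (h : ∀ x ∈ s, p x → q x) : ((s.filter p).card : ℝ) ≤ ((s.filter q).card : ℝ) := by
  have : s.filter p ⊆ s.filter q := by
    intro x hx
    rw [mem_filter] at hx ⊢
    exact ⟨hx.1, h x hx.1 hx.2⟩
  exact_mod_cast card_le_card this

/-- **All imaginary quadratic fields** -/
theorem all_discs (hM : ∀ e c, Good e c → Moment e c) (hQ : Desc FinQ.{u}) :
    ∀ᶠ X : ℕ in atTop, 0.1504 * ((discs X).ncard : ℝ) ≤ ((discs X ∩ finDisc.{u}).ncard : ℝ) := by
  filter_upwards [all_fields FinQ.{u} hM hQ] with X hX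
  have h1 : (discs X).ncard = (fields X).card := by
    have := ncard_discs Set.univ X
    simpa using this
  rw [h1, ncard_discs]
  exact hX.trans (card_le_of_imp fun d _ => finDisc_of)

/-- **The fields of a type with root number `+1`** -/
theorem type_discs (hM : ∀ e c, Good e c → Moment e c) (hQ : Desc FinQ.{u}) (i : Fin 5) :
    ∀ᶠ X : ℕ in atTop, 0.2887 * ((discs X ∩ typeD i).ncard : ℝ) ≤
      ((discs X ∩ (typeD i ∩ finDisc.{u})).ncard : ℝ) := by
  filter_upwards [type_fields FinQ.{u} hM hQ i] with X hX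
  rw [ncard_discs, ncard_discs]
  refine le_trans (mul_le_mul_of_nonneg_left (card_le_of_imp fun d _ h => ?_) (by norm_num))
    (hX.trans (card_le_of_imp fun d _ h => ?_))
  · exact (mem_typeD i d).1 h
  · exact ⟨(mem_typeD i d).2 h.1, finDisc_of h.2⟩

end Vale.Agent.P017.H998
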