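import Vale.Agent.P017.H998.Final

/-!
# The five types of decomposition of `3` and `5` with root number `+1`
-/

namespace Vale.Agent.P017.H998

open Finset Filter Topology Vale.Agent.P017.H509

/-- The types `(3, 5)` in `ℚ(√-d)`: split-inert, inert-split, ramified-inert, split-ramified,
ramified-ramified. -/
def Typ : Fin 5 → ℕ → Prop
  | 0, d => d % 3 = 2 ∧ (d % 5 = 2 ∨ d % 5 = 3)
  | 1, d => d % 3 = 1 ∧ (d % 5 = 1 ∨ d % 5 = 4)
  | 2, d => d % 3 = 0 ∧ (d % 5 = 2 ∨ d % 5 = 3)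
  | 3, d => d % 3 = 2 ∧ d % 5 = 0
  | 4, d => d % 3 = 0 ∧ d % 5 = 0

/-- the types in terms of the classes -/
def TypW : Fin 5 → S × G → Prop
  | 0, w => w.1.2.1 = 0 ∧ w.1.2.2 = 0 ∧ τD w.1 w.2 = 0 ∧ κD w.1 w.2 = 1
  | 1, w => w.1.2.1 = 0 ∧ w.1.2.2 = 0 ∧ τD w.1 w.2 = 1 ∧ κD w.1 w.2 = 0
  | 2, w => w.1.2.1 = 1 ∧ w.1.2.2 = 0 ∧ κD w.1 w.2 = 1
  | 3, w => w.1.2.1 = 0 ∧ w.1.2.2 = 1 ∧ τD w.1 w.2 = 0
  | 4, w => w.1.2.1 = 1 ∧ w.1.2.2 = 1

theorem good_iff (w : S × G) : Good w.1 w.2 ↔ ∃ i, TypW i w := by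
  unfold Good
  constructor
  · rintro (h | h | h | h | h)
    exacts [⟨0, h⟩, ⟨1, h⟩, ⟨2, h⟩, ⟨3, h⟩, ⟨4, h⟩]
  · rintro ⟨i, h⟩
    fin_cases i
    · exact Or.inl h
    · exact Or.inr (Or.inl h)
    · exact Or.inr (Or.inr (Or.inl h))
    · exact Or.inr (Or.inr (Or.inr (Or.inl h)))
    · exact Or.inr (Or.inr (Or.inr (Or.inr h)))

theorem mod3 (e : S) {m : ℕ} (hm : m.Coprime 30) :
    ((val e * m) % 3 = 0 ↔ e.2.1 = 1) ∧
    ((val e * m) % 3 = 2 ↔ e.2.1 = 0 ∧ τD e (cl m) = 0) ∧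
    ((val e * m) % 3 = 1 ↔ e.2.1 = 0 ∧ τD e (cl m) = 1) := by
  obtain ⟨-, h3, -⟩ := odd_of_cop hm
  have h : m % 3 = 1 ∧ (cl m).2.2.1 = 0 ∨ m % 3 = 2 ∧ (cl m).2.2.1 = 1 := by
    have : m % 3 = 1 ∨ m % 3 = 2 := by omega
    rcases this with h | h <;> simp [cl, h]
  unfold τD
  rcases h with ⟨h1, h2⟩ | ⟨h1, h2⟩
  · rw [Nat.mul_mod, h1, h2]
    clear h1 h2 h3 hm
    revert e
    decide
  · rw [Nat.mul_mod, h1, h2]
    clear h1 h2 h3 hm
    revert e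
    decide

theorem mod5 (e : S) {m : ℕ} (hm : m.Coprime 30) :
    ((val e * m) % 5 = 0 ↔ e.2.2 = 1) ∧
    (((val e * m) % 5 = 2 ∨ (val e * m) % 5 = 3) ↔ e.2.2 = 0 ∧ κD e (cl m) = 1) ∧
    (((val e * m) % 5 = 1 ∨ (val e * m) % 5 = 4) ↔ e.2.2 = 0 ∧ κD e (cl m) = 0) := by
  obtain ⟨-, -, h5⟩ := odd_of_cop hm
  have h : m % 5 = 1 ∧ (cl m).2.2.2 = 0 ∨ m % 5 = 4 ∧ (cl m).2.2.2 = 0 ∨
      m % 5 = 2 ∧ (cl m).2.2.2 = 1 ∨ m % 5 = 3 ∧ (cl m).2.2.2 = 1 := by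
    have : m % 5 = 1 ∨ m % 5 = 2 ∨ m % 5 = 3 ∨ m % 5 = 4 := by omega
    rcases this with h | h | h | h <;> simp [cl, h]
  unfold κD
  rcases h with ⟨h1, h2⟩ | ⟨h1, h2⟩ | ⟨h1, h2⟩ | ⟨h1, h2⟩
  all_goals
    rw [Nat.mul_mod, h1, h2]
    clear h1 h2 h5 hm
    revert e
    decide

theorem typ_mul (i : Fin 5) (e : S) {m : ℕ} (hm : m.Coprime 30) :
    Typ i (val e * m) ↔ TypW i (e, cl m) := by
  obtain ⟨a0, a2, a1⟩ := mod3 e hm
  obtain ⟨b0, b2, b1⟩ := mod5 e hm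
  fin_cases i
  · exact (and_congr a2 b2).trans
      ⟨fun h => ⟨h.1.1, h.2.1, h.1.2, h.2.2⟩, fun h => ⟨⟨h.1, h.2.2.1⟩, h.2.1, h.2.2.2⟩⟩
  · exact (and_congr a1 b1).trans
      ⟨fun h => ⟨h.1.1, h.2.1, h.1.2, h.2.2⟩, fun h => ⟨⟨h.1, h.2.2.1⟩, h.2.1, h.2.2.2⟩⟩
  · exact and_congr a0 b2
  · exact (and_congr a2 b0).trans
      ⟨fun h => ⟨h.1.1, h.2, h.1.2⟩, fun h => ⟨⟨h.1, h.2.2⟩, h.2.1⟩⟩
  · exact and_congr a0 b0

theorem typ_iff (i : Fin 5) {d : ℕ} (hd : Squarefree d) : Typ i d ↔ TypW i (cw d) := by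
  have h := typ_mul i (ed d) (md_cop hd)
  rw [val_md] at h
  exact h

open Classical in
/-- the classes of a type -/
noncomputable def Wt (i : Fin 5) : Finset (S × G) := univ.filter (TypW i)

open Classical in
theorem mem_Wt {i : Fin 5} {w : S × G} : w ∈ Wt i ↔ TypW i w := by
  unfold Wt
  rw [mem_filter]
  exact and_iff_right (mem_univ _)

theorem Wt_nonempty (i : Fin 5) : (Wt i).Nonempty := by
  have h : ∀ w, TypW i w → (Wt i).Nonempty := fun w hw => ⟨w, mem_Wt.2 hw⟩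
  fin_cases i
  · refine h (0, (0, 0, 1, 1)) ?_
    change (_ ∧ _ ∧ _ ∧ _)
    decide
  · refine h (0, 0) ?_
    change (_ ∧ _ ∧ _ ∧ _)
    decide
  · refine h ((0, 1, 0), 0) ?_
    change (_ ∧ _ ∧ _)
    decide
  · refine h ((0, 0, 1), 0) ?_
    change (_ ∧ _ ∧ _)
    decide
  · refine h ((0, 1, 1), 0) ?_
    change (_ ∧ _)
    decide

/-- the conclusion of the descent for the classes `w` -/
def Desc (Q : ℕ → Prop) : Prop := ∀ (e : S) (m : ℕ), Squarefree m → m.Coprime 30 →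
  Good e (cl m) → Nat.card (V e m) = 2 → val e * m ≠ 1 → Q (val e * m)

open Classical in
/-- The proportion among all imaginary quadratic fields -/
theorem all_fields (Q : ℕ → Prop) (hM : ∀ e c, Good e c → Moment e c) (hQ : Desc Q) :
    ∀ᶠ X : ℕ in atTop, 0.1504 * ((fields X).card : ℝ) ≤ (((fields X).filter Q).card : ℝ) := by
  have h := ratio_W univ goodW (subset_univ _) Q (fun w hw => (mem_filter.1 hw).2)
    (fun w hw => hM _ _ (mem_filter.1 hw).2)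
    (fun e m h1 h2 h3 h4 h5 => hQ e m h1 h2 (mem_filter.1 h3).2 h4 h5)
    (b := 0.1504) (by norm_num) ?_
  · simpa using h
  · simp only [wt_eq, ← sum_div]
    have h1 : (48 : ℝ) * ∑ w ∈ goodW, (wn w : ℝ) = 25 * ∑ w : S × G, (wn w : ℝ) := by
      exact_mod_cast weights
    have h2 : (0 : ℝ) < ∑ w : S × G, (wn w : ℝ) := by
      have : 0 < ∑ w : S × G, wn w := by decide +kernel
      exact_mod_cast this
    unfold ρ
    have h3 : ∑ w ∈ goodW, (wn w : ℝ) = 25 / 48 * ∑ w : S × G, (wn w : ℝ) := by linarith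
    rw [h3]
    nlinarith

open Classical in
/-- The proportion in each of the five types -/
theorem type_fields (Q : ℕ → Prop) (hM : ∀ e c, Good e c → Moment e c) (hQ : Desc Q)
    (i : Fin 5) : ∀ᶠ X : ℕ in atTop, 0.2887 * (((fields X).filter (Typ i)).card : ℝ) ≤
      (((fields X).filter fun d => Typ i d ∧ Q d).card : ℝ) := by
  have hg : ∀ w ∈ Wt i, Good w.1 w.2 := fun w hw => (good_iff w).2 ⟨i, mem_Wt.1 hw⟩
  have h := ratio_W (Wt i) (Wt i) subset_rfl Q hg (fun w hw => hM _ _ (hg w hw))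
    (fun e m h1 h2 h3 h4 h5 => hQ e m h1 h2 (hg _ h3) h4 h5)
    (b := 0.2887) (by norm_num) ?_
  · have e1 : ∀ X, (fields X).filter (fun d => cw d ∈ Wt i) = (fields X).filter (Typ i) := by
      intro X
      refine filter_congr fun d hd => ?_
      rw [typ_iff i (mem_fields.1 hd).1, mem_Wt]
    have e2 : ∀ X, (fields X).filter (fun d => cw d ∈ Wt i ∧ Q d) =
        (fields X).filter (fun d => Typ i d ∧ Q d) := by
      intro X
      refine filter_congr fun d hd => ?_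
      rw [typ_iff i (mem_fields.1 hd).1, mem_Wt]
    filter_upwards [h] with X hX
    rw [← e2]
    rw [e1] at hX
    convert hX
  · have h1 : 0 < ∑ w ∈ Wt i, wt w := sum_pos (fun w _ => wt_pos w) (Wt_nonempty i)
    refine mul_lt_mul_of_pos_right ?_ h1
    unfold ρ
    norm_num

end Vale.Agent.P017.H998
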